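import Vale.Agent.P216LS.Lin
import Vale.Agent.P216R.Flow
import Vale.Agent.P216B.Top
import Vale.Agent.P216ST.Stmt
import Mathlib.Analysis.Calculus.BumpFunction.FiniteDimension

/-! # P216LS: smooth functions on an open set, finite partitions of unity -/

open scoped Manifold ContDiff Topology
open Set Metric Filter

set_option maxSynthPendingDepth 3
set_option linter.unusedSectionVars false

noncomputable section

namespace Vale.Agent.P216LS

open P216R P219.RG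
open P216ST (Sm0)
open P210.R2.H53 (gradG gamG dens)

/-- a real function that is smooth at a point -/
abbrev SR (E : Type) [NormedAddCommGroup E] [NormedSpace ℝ E] {M : Type} [TopologicalSpace M]
    [ChartedSpace E M] (φ : M → ℝ) (x : M) : Prop := ContMDiffAt 𝓘(ℝ, E) 𝓘(ℝ, ℝ) ∞ φ x

variable {E : Type} [NormedAddCommGroup E] [NormedSpace ℝ E] [FiniteDimensional ℝ E]
  {M : Type} [TopologicalSpace M] [ChartedSpace E M] [IsManifold 𝓘(ℝ, E) ∞ M]
  {g : Ten E M} {U : Set M} {φ ψ : M → ℝ} {x a : M}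

theorem SR.rd (h : SR E φ x) : ContDiffAt ℝ ∞ (rd E φ x) (pt E x) := contMDiffAt_iff_rd.1 h

theorem SR.diff (h : SR E φ x) : DifferentiableAt ℝ (P216R.rd E φ x) (pt E x) :=
  h.rd.differentiableAt (by simp)

theorem SR.comp_ld {f : E → M} {u : E} (h : SR E φ (f u)) (hf : SM E f u) :
    ContDiffAt ℝ ∞ (φ ∘ f) u := (ContMDiffAt.comp u h hf).contDiffAt

theorem sr_chart {F : E → ℝ} (ha : x ∈ (chartAt E a).source)
    (h : ContDiffAt ℝ ∞ F (chartAt E a x)) : SR E (F ∘ chartAt E a) x :=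
  h.contMDiffAt.comp x (sm_chart ha)

theorem rd_comp_chart (φ : M → ℝ) (ha : x ∈ (chartAt E a).source) :
    rd E φ a ∘ chartAt E a =ᶠ[𝓝 x] φ := by
  filter_upwards [(chartAt E a).open_source.mem_nhds ha] with y hy
  exact congrArg φ ((chartAt E a).left_inv hy)

theorem sm0_iff (hU : IsOpen U) : Sm0 E φ U ↔ ∀ x ∈ U, SR E φ x :=
  ⟨fun h x hx => contMDiffAt_iff_rd.2 ((h x).contDiffAt ((isOpen_dom x hU).mem_nhds (pt_mem_dom hx))),
    fun h _ _ hu => ((h _ hu.2).comp_ld (sm_symm hu.1)).contDiffWithinAt⟩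

theorem sm0_iff' (hU : IsOpen U) : Sm0 E φ U ↔ ContMDiffOn 𝓘(ℝ, E) 𝓘(ℝ, ℝ) ∞ φ U :=
  (sm0_iff hU).trans ⟨fun h x hx => (h x hx).contMDiffWithinAt,
    fun h _ hx => h.contMDiffAt (hU.mem_nhds hx)⟩

theorem sm0_cont (hU : IsOpen U) (h : Sm0 E φ U) : ContinuousOn φ U :=
  ((sm0_iff' hU).1 h).continuousOn

/-- the differential of a function at `x` -/
def dF (E : Type) [NormedAddCommGroup E] [NormedSpace ℝ E] {M : Type} [TopologicalSpace M]
    [ChartedSpace E M] (φ : M → ℝ) (x : M) : E →L[ℝ] ℝ := fderiv ℝ (rd E φ x) (pt E x)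

theorem gam_dF (g : Ten E M) (φ ψ : M → ℝ) (x : M) :
    gam g φ ψ x = dF E φ x ((g x).inverse (dF E ψ x)) := by
  rw [gam, gamG, gradG, co_pt]; rfl

theorem gam_nonneg (hg : Met g U) (hx : x ∈ U) (φ : M → ℝ) : 0 ≤ gam g φ φ x := by
  rw [gam_dF]; exact dual_nonneg (hg.pos x hx) _

theorem gam_le_iff (hg : Met g U) (hx : x ∈ U) {C : ℝ} (hC : 0 ≤ C) :
    gam g φ φ x ≤ C ^ 2 ↔ ∀ v, |dF E φ x v| ≤ C * √(g x v v) := by
  rw [gam_dF]; exact dual_le_iff (hg.symm x hx) (hg.pos x hx) _ hC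

theorem dF_congr (h : φ =ᶠ[𝓝 x] ψ) : dF E φ x = dF E ψ x := (rd_congr h).fderiv_eq

theorem dF_const (c : ℝ) (x : M) : dF E (fun _ => c) x = 0 := 
  (hasFDerivAt_const (𝕜 := ℝ) c (pt E x)).fderiv

theorem dF_mul (h : SR E φ x) (h' : SR E ψ x) :
    dF E (fun y => φ y * ψ y) x = φ x • dF E ψ x + ψ x • dF E φ x := by
  have := fderiv_fun_mul h.diff h'.diff
  rwa [rd_pt, rd_pt] at this

theorem dF_sub_const (φ : M → ℝ) (c : ℝ) (x : M) : dF E (fun y => φ y - c) x = dF E φ x :=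
  fderiv_sub_const c

theorem dF_sum {ι : Type} {s : Finset ι} {φ : ι → M → ℝ} (h : ∀ i ∈ s, SR E (φ i) x) :
    dF E (fun y => ∑ i ∈ s, φ i y) x = ∑ i ∈ s, dF E (φ i) x :=
  fderiv_fun_sum fun i hi => (h i hi).diff

theorem gam_chart (hg : Met g U) (hx : x ∈ U) (ha : x ∈ (chartAt E a).source) {F H : E → ℝ}
    (hF : DifferentiableAt ℝ F (chartAt E a x)) (hH : DifferentiableAt ℝ H (chartAt E a x)) :
    gam g (F ∘ chartAt E a) (H ∘ chartAt E a) x = gamG (co g a) F H (chartAt E a x) := by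
  rw [(li_chart hg hx ha).gam (by simpa using hF) (by simpa using hH), gam_model]

theorem gam_comp (hg : Met g U) {f : E → M} {V : Set E} (hf : LD E f V) {u : E} (hu : u ∈ V)
    (hU : f u ∈ U) (h : SR E φ (f u)) (h' : SR E ψ (f u)) :
    gam g φ ψ (f u) = gamG (comap f g) (φ ∘ f) (ψ ∘ f) u := by
  rw [← (li_comap hg hf hu hU).gam h.diff h'.diff, gam_model]

theorem sm0_gam (hg : Met g U) (h : Sm0 E φ U) (h' : Sm0 E ψ U) : Sm0 E (gam g φ ψ) U :=
  fun a u hu => by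
  have ho := (isOpen_dom (E := E) a hg.isOpen).mem_nhds hu
  have h1 := ((ps_const ((hg.smooth a).contDiffAt ho) univ (0 : ℝ)).gamG (mem_univ _)
    ((hg.isMetricOn a).pos u hu) (ps_const ((h a).contDiffAt ho) _ _)
    (ps_const ((h' a).contDiffAt ho) _ _)).contDiffAt (mem_univ _)
  refine (h1.congr_of_eventuallyEq ?_).contDiffWithinAt
  filter_upwards [ho] with w hw
  exact gam_comp hg (ld_symm a) hw.1 hw.2 ((sm0_iff hg.isOpen).1 h _ hw.2)
    ((sm0_iff hg.isOpen).1 h' _ hw.2)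

/-- a function that is smooth on `V` and vanishes off a compact subset of `V` -/
theorem sr_of_supp (hU : IsOpen U) (hH : Hs U) {K V : Set M} (hK : IsCompact K) (hKU : K ⊆ U)
    (hKV : K ⊆ V) (h : ∀ y ∈ U ∩ V, SR E φ y) (h0 : ∀ y ∈ U \ K, φ y = 0) (hx : x ∈ U) :
    SR E φ x := by
  by_cases hk : x ∈ K
  · exact h x ⟨hx, hKV hk⟩
  · exact contMDiffAt_const.congr_of_eventuallyEq
      (mem_of_superset ((hH.isOpen_diff hU hK hKU).mem_nhds ⟨hx, hk⟩) h0)

theorem exists_bump_at (hU : IsOpen U) (hH : Hs U) (hx : x ∈ U) {V : Set M} (hV : V ∈ 𝓝 x) :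
    ∃ (β : M → ℝ) (K : Set M), IsCompact K ∧ K ⊆ U ∩ V ∧ (∀ y ∈ U, SR E β y) ∧
      (∀ y, 0 ≤ β y ∧ β y ≤ 1) ∧ (∀ y ∉ K, β y = 0) ∧ β =ᶠ[𝓝 x] 1 := by
  classical
  obtain ⟨δ, hδ, h1⟩ := nhds_basis_closedBall.mem_iff.1 (inter_mem
    ((chartAt E x).open_target.mem_nhds (pt_mem x))
    (tendsto_symm_pt (E := E) x (inter_mem (hU.mem_nhds hx) hV)))
  let b : ContDiffBump (pt E x) := ⟨δ / 2, δ, half_pos hδ, half_lt_self hδ⟩
  have hK : IsCompact ((chartAt E x).symm '' closedBall (pt E x) δ) :=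
    (isCompact_closedBall _ _).image_of_continuousOn
      ((chartAt E x).continuousOn_symm.mono fun u hu => (h1 hu).1)
  have hKU : (chartAt E x).symm '' closedBall (pt E x) δ ⊆ U ∩ V := by
    rintro _ ⟨u, hu, rfl⟩; exact (h1 hu).2
  have h0 : ∀ y ∉ (chartAt E x).symm '' closedBall (pt E x) δ,
      (chartAt E x).source.indicator (b ∘ chartAt E x) y = 0 := fun y hy => by
    by_cases hs : y ∈ (chartAt E x).source
    · rw [indicator_of_mem hs]
      exact b.zero_of_le_dist (le_of_not_gt fun h => hy ⟨_, h.le, (chartAt E x).left_inv hs⟩)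
    · exact indicator_of_notMem hs _
  have he : ∀ y ∈ (chartAt E x).source,
      (chartAt E x).source.indicator (b ∘ chartAt E x) =ᶠ[𝓝 y] b ∘ chartAt E x := fun y hy =>
    mem_of_superset ((chartAt E x).open_source.mem_nhds hy) fun z hz => indicator_of_mem hz _
  refine ⟨_, _, hK, hKU, fun y hy => sr_of_supp hU hH hK (hKU.trans inter_subset_left)
    (V := (chartAt E x).source) ?_ (fun z hz => ?_) (fun z hz => h0 z hz.2) hy, fun y => ?_, h0, ?_⟩
  · rintro _ ⟨u, hu, rfl⟩; exact (chartAt E x).map_target (h1 hu).1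
  · exact (sr_chart hz.2 b.contDiff.contDiffAt).congr_of_eventuallyEq (he z hz.2)
  · exact ⟨indicator_nonneg (fun _ _ => b.nonneg) y,
      indicator_apply_le' (fun _ => b.le_one) fun _ => zero_le_one⟩
  · exact (he x (mem_chart_source E x)).trans
      (((chartAt E x).continuousAt (mem_chart_source E x)).eventually b.eventuallyEq_one)

/-- a finite smooth partition of unity on a closed manifold -/
theorem exists_pou (hU : IsOpen U) (hc : IsCompact U) (hH : Hs U) (V : M → Set M)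
    (hV : ∀ x ∈ U, V x ∈ 𝓝 x) : ∃ (s : Finset M) (χ : M → M → ℝ) (K : M → Set M),
      (∀ i ∈ s, i ∈ U ∧ IsCompact (K i) ∧ K i ⊆ U ∩ V i ∧ (∀ y ∈ U, SR E (χ i) y) ∧
        (∀ y, 0 ≤ χ i y) ∧ ∀ y ∉ K i, χ i y = 0) ∧ ∀ y ∈ U, ∑ i ∈ s, χ i y = 1 := by
  choose! β K h1 h2 h3 h4 h5 h6 using fun x hx => exists_bump_at (E := E) hU hH hx (hV x hx)
  obtain ⟨s, hs, hc⟩ := hc.elim_nhds_subcover (fun x => {y | β x y = 1}) h6
  have h7 : ∀ y, 0 ≤ ∑ i ∈ s, β i y := fun y => Finset.sum_nonneg fun i hi => (h4 i (hs i hi) y).1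
  have h8 : ∀ y ∈ U, ∑ i ∈ s, β i y ≠ 0 := fun y hy => by
    obtain ⟨i, hi, e⟩ := mem_iUnion₂.1 (hc hy)
    have := Finset.single_le_sum (f := fun i => β i y) (fun i hi => (h4 i (hs i hi) y).1) hi
    rw [show β i y = 1 from e] at this
    linarith
  refine ⟨s, fun i y => β i y / ∑ j ∈ s, β j y, K, fun i hi => ⟨hs i hi, h1 i (hs i hi),
    h2 i (hs i hi), fun y hy => ?_, fun y => div_nonneg (h4 i (hs i hi) y).1 (h7 y),
    fun y hy => by simp [h5 i (hs i hi) y hy]⟩, fun y hy => ?_⟩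
  · exact (h3 i (hs i hi) y hy).div₀ (contMDiffAt_finsetSum fun j hj => h3 j (hs j hj) y hy) (h8 y hy)
  · rw [← Finset.sum_div, div_self (h8 y hy)]

end Vale.Agent.P216LS
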