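import Mathlib.Analysis.Calculus.BumpFunction.Convolution
import Mathlib.Analysis.Calculus.BumpFunction.FiniteDimension
import Mathlib.Analysis.Calculus.Deriv.Basic
import Mathlib.MeasureTheory.Measure.Haar.OfBasis

/-! # P216LS: mollification of a Lipschitz function on a ball -/

open scoped ContDiff Topology Convolution
open Set MeasureTheory Metric Filter

noncomputable section

namespace Vale.Agent.P216LS

variable {E : Type} [NormedAddCommGroup E] [NormedSpace ℝ E] [FiniteDimensional ℝ E]

theorem mol {f : E → ℝ} {u : E} {δ s : ℝ} (hs : 0 < s) (hδ : s ≤ δ / 4)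
    (hf : ContinuousOn f (ball u δ)) : ∃ F : E → ℝ, ContDiff ℝ ∞ F ∧
      (∀ p ∈ ball u (δ / 2), ∀ a b, (∀ q ∈ ball p s, f q ∈ Icc a b) → F p ∈ Icc a b) ∧
      ∀ p ∈ ball u (δ / 2), ∀ q ∈ ball u (δ / 2), ∀ c,
        (∀ t ∈ ball (0 : E) s, f (p - t) - f (q - t) ≤ c) → F p - F q ≤ c := by
  borelize E
  set μ := (Module.finBasis ℝ E).addHaar
  let b : ContDiffBump (0 : E) := ⟨s / 2, s, half_pos hs, half_lt_self hs⟩
  set f' := (closedBall u (3 / 4 * δ)).indicator f with hf'
  have h1 : LocallyIntegrable f' μ := by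
    refine Integrable.locallyIntegrable ((integrable_indicator_iff measurableSet_closedBall).2 ?_)
    exact (hf.mono (closedBall_subset_ball (by linarith))).integrableOn_compact
      (isCompact_closedBall _ _)
  have h2 : ∀ p, Integrable (fun t => b.normed μ t * f' (p - t)) μ := fun p =>
    b.hasCompactSupport_normed.convolutionExists_left (ContinuousLinearMap.lsmul ℝ ℝ)
      b.continuous_normed h1 p
  have h3 : ∀ p ∈ ball u (δ / 2), ∀ t ∈ ball (0 : E) s, f' (p - t) = f (p - t) := fun p hp t ht => by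
    refine indicator_of_mem ?_ _
    rw [mem_closedBall, dist_eq_norm, sub_right_comm]
    rw [mem_ball, dist_eq_norm] at hp
    rw [mem_ball_zero_iff] at ht
    linarith [norm_sub_le (p - u) t]
  have h4 : ∀ (k : E → ℝ) (c : ℝ), Integrable (fun t => b.normed μ t * k t) μ →
      (∀ t ∈ ball (0 : E) s, k t ≤ c) → ∫ t, b.normed μ t * k t ∂μ ≤ c := fun k c hk h => by
    calc _ ≤ ∫ t, b.normed μ t * c ∂μ := integral_mono hk (b.integrable_normed.mul_const c) fun t => ?_
      _ = c := by rw [integral_mul_const, b.integral_normed, one_mul]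
    by_cases ht : t ∈ ball (0 : E) s
    · exact mul_le_mul_of_nonneg_left (h t ht) (b.nonneg_normed t)
    · have : b.normed μ t = 0 := Function.notMem_support.1 (by rwa [b.support_normed_eq])
      simp [this]
  refine ⟨fun p => ∫ t, b.normed μ t * f' (p - t) ∂μ,
    b.hasCompactSupport_normed.contDiff_convolution_left (ContinuousLinearMap.lsmul ℝ ℝ)
      b.contDiff_normed h1, fun p hp a c h => ⟨?_, ?_⟩, fun p hp q hq c h => ?_⟩
  · have := h4 (fun t => -f' (p - t)) (-a) (by simpa using (h2 p).neg) fun t ht => by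
      rw [h3 p hp t ht]
      exact neg_le_neg (h _ (by simpa using ht)).1
    simp only [mul_neg, integral_neg] at this
    linarith
  · exact h4 _ c (h2 p) fun t ht => by
      rw [h3 p hp t ht]
      exact (h _ (by simpa using ht)).2
  · have := h4 (fun t => f' (p - t) - f' (q - t)) c
      (by simp only [mul_sub]; exact (h2 p).sub (h2 q)) fun t ht => by
        rw [h3 p hp t ht, h3 q hq t ht]; exact h t ht
    simp only [mul_sub] at this
    rwa [integral_sub (h2 p) (h2 q)] at this

omit [FiniteDimensional ℝ E] in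
theorem fderiv_le_of_lip {F : E → ℝ} {p : E} (hF : DifferentiableAt ℝ F p) {N : E → ℝ}
    (hN : ∀ (t : ℝ) v, N (t • v) = |t| * N v) (h0 : ∀ v, 0 ≤ N v)
    (h : ∀ᶠ q in 𝓝 p, |F q - F p| ≤ N (q - p)) (v : E) : |fderiv ℝ F p v| ≤ N v := by
  have h1 : HasDerivAt (fun t : ℝ => p + t • v) v 0 := by
    simpa using ((hasDerivAt_id (0 : ℝ)).smul_const v).const_add p
  have h2 : HasDerivAt (fun t : ℝ => F (p + t • v)) (fderiv ℝ F p v) 0 :=
    HasFDerivAt.comp_hasDerivAt_of_eq (l := F) 0 hF.hasFDerivAt h1 (by simp)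
  refine h2.le_of_lip' (h0 v) ?_
  have h3 : Tendsto (fun t : ℝ => p + t • v) (𝓝 0) (𝓝 p) := by simpa using h1.continuousAt.tendsto
  filter_upwards [h3.eventually h] with t ht
  simpa [hN, mul_comm] using ht

end Vale.Agent.P216LS
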