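import Vale.Agent.P216LS.PoU
import Vale.Agent.P216LS.Mol

/-! # P216LS: smoothing of Lipschitz functions, cutoff functions -/

open scoped Manifold ContDiff Topology ENNReal
open Set Metric Filter

set_option maxSynthPendingDepth 3
set_option linter.unusedSectionVars false

noncomputable section

namespace Vale.Agent.P216LS

open P216R P219.RG
open P216ST (Sm0)
open P210.R2.H53 (gradG gamG dens)

variable {E : Type} [NormedAddCommGroup E] [NormedSpace ℝ E] [FiniteDimensional ℝ E]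
  {M : Type} [TopologicalSpace M] [ChartedSpace E M] [IsManifold 𝓘(ℝ, E) ∞ M]
  {g : Ten E M} {U : Set M} {f : M → ℝ} {x : M} {L : ℝ}

/-- `f` is `L`-Lipschitz for the Riemannian distance of `(U, g)` -/
def Lip (g : Ten E M) (U : Set M) (f : M → ℝ) (L : ℝ) : Prop :=
  ∀ y z, ed g U y z ≠ ⊤ → |f y - f z| ≤ L * dd g U y z

theorem Lip.le (h : Lip g U f L) (hL : 0 ≤ L) {y z : M} {r : ℝ} (hr : 0 ≤ r)
    (e : ed g U y z ≤ ENNReal.ofReal r) : |f y - f z| ≤ L * r :=
  (h y z (ne_top_of_le_ne_top ENNReal.ofReal_ne_top e)).trans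
    (mul_le_mul_of_nonneg_left (ENNReal.toReal_le_of_le_ofReal hr e) hL)

theorem smooth_loc (hg : Met g U) (hL : 0 ≤ L) (hf : Lip g U f L) (hx : x ∈ U) {η : ℝ}
    (hη : 0 < η) : ∃ V, IsOpen V ∧ x ∈ V ∧ ∀ ε > 0, ∃ F : M → ℝ, ∀ y ∈ V, SR E F y ∧
      gam g F F y ≤ (L * (1 + η) ^ 2) ^ 2 ∧
      ∀ a b, (∀ z ∈ bl g U y ε, f z ∈ Icc a b) → F y ∈ Icc a b := by
  obtain ⟨δ, hδ, h1, h2, -, h4, h5⟩ := hg.exists_ball (ld_symm x) (pt_mem x) (by rwa [symm_pt]) hη
    ((chartAt E x).open_target.mem_nhds (pt_mem x))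
  set c := chartAt E x
  set B := comap c.symm g (pt E x)
  have e1 : ∀ p ∈ ball (pt E x) δ, ∀ q ∈ ball (pt E x) δ, ed g U (c.symm p) (c.symm q) ≤
      ENNReal.ofReal ((1 + η) * √(B (p - q) (p - q))) := fun p hp q hq =>
    (h2.ed_le h4 p q).trans (ed_le_form (convex_ball _ _) hp hq (by positivity)
      fun u hu v => (h5 u hu v).1)
  have e2 : ∀ p ∈ ball (pt E x) δ, ∀ q ∈ ball (pt E x) δ, |f (c.symm p) - f (c.symm q)| ≤
      L * ((1 + η) * √(B (p - q) (p - q))) := fun p hp q hq =>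
    hf.le hL (by positivity) (e1 p hp q hq)
  have e3 : ContinuousOn (f ∘ c.symm) (ball (pt E x) δ) := fun q hq => by
    refine tendsto_iff_norm_sub_tendsto_zero.2 (squeeze_zero' (Eventually.of_forall fun _ =>
      norm_nonneg _) (mem_of_superset self_mem_nhdsWithin fun p hp => e2 p hp q hq) ?_)
    have : Continuous fun p => L * ((1 + η) * √(B (p - q) (p - q))) := by fun_prop
    simpa using (this.tendsto q).mono_left nhdsWithin_le_nhds
  refine ⟨c.source ∩ c ⁻¹' ball (pt E x) (δ / 2), c.isOpen_inter_preimage isOpen_ball,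
    ⟨mem_chart_source E x, mem_ball_self (half_pos hδ)⟩, fun ε hε => ?_⟩
  have hB : 0 < (1 + η) * √‖B‖ + 1 := by positivity
  obtain ⟨F, f1, f2, f3⟩ := mol (s := min (δ / 4) (ε / ((1 + η) * √‖B‖ + 1))) (by positivity)
    (min_le_left _ _) e3
  have e4 : ∀ p ∈ ball (pt E x) (δ / 2), ∀ t ∈ ball (0 : E) (min (δ / 4)
      (ε / ((1 + η) * √‖B‖ + 1))), p - t ∈ ball (pt E x) δ := fun p hp t ht => by
    rw [mem_ball, dist_eq_norm] at hp ⊢
    rw [sub_right_comm]
    linarith [norm_sub_le (p - pt E x) t, (mem_ball_zero_iff.1 ht).trans_le (min_le_left _ _)]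
  refine ⟨F ∘ c, fun y hy => ⟨sr_chart hy.1 f1.contDiffAt, ?_, fun a b h => f2 _ hy.2 a b
    fun q hq => h _ ?_⟩⟩
  · have hp : c y ∈ ball (pt E x) δ := ball_subset_ball (half_le_self hδ.le) hy.2
    have hU : y ∈ U := c.left_inv hy.1 ▸ h4 hp
    have hd := f1.differentiable (by simp) (c y)
    have hm := hg.isMetricOn x
    rw [gam_chart hg hU hy.1 hd hd]
    refine (dual_le_iff (hm.symm _ (mem_dom hy.1 hU)) (hm.pos _ (mem_dom hy.1 hU)) _
      (by positivity)).2 fun v => ?_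
    refine (fderiv_le_of_lip hd (N := fun v => L * ((1 + η) * √(B v v)))
      (fun t v => by rw [sqrt_smul]; ring) (fun v => by positivity) ?_ v).trans ?_
    · filter_upwards [isOpen_ball.mem_nhds hy.2] with q hq
      refine abs_sub_le_iff.2 ⟨f3 q hq _ hy.2 _ fun t ht => ?_, f3 _ hy.2 q hq _ fun t ht => ?_⟩
      · simpa using (abs_sub_le_iff.1 (e2 _ (e4 q hq t ht) _ (e4 _ hy.2 t ht))).1
      · simpa using (abs_sub_le_iff.1 (e2 _ (e4 q hq t ht) _ (e4 _ hy.2 t ht))).2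
    · have := sqrt_le_of (by positivity) (h5 _ hp v).2
      calc _ ≤ L * ((1 + η) * ((1 + η) * √(co g x (c y) v v))) := by gcongr; exact this
        _ = _ := by ring
  · have hq' : q ∈ ball (pt E x) δ := by
      simpa using e4 _ hy.2 (c y - q) (by rwa [mem_ball_zero_iff, ← dist_eq_norm, ← mem_ball'])
    have := e1 _ (ball_subset_ball (half_le_self hδ.le) hy.2) q hq'
    rw [c.left_inv hy.1] at this
    refine this.trans_lt ((ENNReal.ofReal_lt_ofReal_iff hε).2 ?_)
    have h6 : √(B (c y - q) (c y - q)) ≤ √‖B‖ * ‖c y - q‖ := by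
      refine (Real.sqrt_le_sqrt (form_le_norm B _)).trans_eq ?_
      rw [Real.sqrt_mul (norm_nonneg _), Real.sqrt_sq (norm_nonneg _)]
    have h7 := (mem_ball'.1 hq).trans_le (min_le_right _ _)
    rw [dist_eq_norm, lt_div_iff₀ hB] at h7
    nlinarith [norm_nonneg (c y - q), mul_le_mul_of_nonneg_left h6 (by positivity : 0 ≤ 1 + η)]

/-- smoothing of a Lipschitz function on a closed manifold -/
theorem smooth_lip (hg : Met g U) (hc : IsCompact U) (hH : Hs U) (hL : 0 ≤ L) (hf : Lip g U f L)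
    {ε : ℝ} (hε : 0 < ε) : ∃ w, Sm0 E w U ∧ ∀ y ∈ U, gam g w w y ≤ (L + ε) ^ 2 ∧
      ∀ a b, (∀ z ∈ bl g U y ε, f z ∈ Icc a b) → w y ∈ Icc a b := by
  obtain ⟨η, hη, e0⟩ : ∃ η > 0, L * (1 + η) ^ 2 ≤ L + ε / 2 := by
    have : ContinuousAt (fun η : ℝ => L * (1 + η) ^ 2) 0 := by fun_prop
    exact (((this.eventually (Iic_mem_nhds (a := L + ε / 2) (by simpa))).filter_mono
      (nhdsWithin_le_nhds (s := Ioi 0))).and self_mem_nhdsWithin).exists.imp fun _ h => h.symm
  choose! V v1 v2 v3 using fun x hx => smooth_loc hg hL hf (x := x) hx hη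
  obtain ⟨s, χ, K, h1, h2⟩ := exists_pou (E := E) hg.isOpen hc hH V
    fun x hx => (v1 x hx).mem_nhds (v2 x hx)
  have h3 : ∀ i ∈ s, ∃ C, 0 ≤ C ∧ ∀ y ∈ U, gam g (χ i) (χ i) y ≤ C ^ 2 := fun i hi => by
    have h4 := (sm0_iff hg.isOpen).2 (h1 i hi).2.2.2.1
    obtain ⟨C, hC⟩ := hc.exists_bound_of_continuousOn (sm0_cont hg.isOpen (sm0_gam hg h4 h4))
    exact ⟨√C, Real.sqrt_nonneg _, fun y hy => by
      rw [Real.sq_sqrt ((norm_nonneg _).trans (hC y hy))]; exact (le_abs_self _).trans (hC y hy)⟩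
  choose! C c1 c2 using h3
  have hS : 0 ≤ ∑ i ∈ s, C i := Finset.sum_nonneg c1
  set ε' := min ε (ε / 2 / ((L + 1) * (∑ i ∈ s, C i + 1))) with hε'
  have p : 0 < ε' := by positivity
  choose! F hF using fun i hi => v3 i (h1 i hi).1 ε' p
  have h5 : ∀ c : ℝ, ∀ i ∈ s, ∀ y ∈ U, SR E (fun z => χ i z * (F i z - c)) y := fun c i hi y hy =>
    sr_of_supp hg.isOpen hH (h1 i hi).2.1 ((h1 i hi).2.2.1.trans inter_subset_left)
      ((h1 i hi).2.2.1.trans inter_subset_right)
      (fun z hz => ((h1 i hi).2.2.2.1 z hz.1).mul ((hF i hi z hz.2).1.sub contMDiffAt_const))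
      (fun z hz => by rw [(h1 i hi).2.2.2.2.2 z hz.2, zero_mul]) hy
  refine ⟨fun y => ∑ i ∈ s, χ i y * F i y, (sm0_iff hg.isOpen).2 fun y hy =>
    contMDiffAt_finsetSum fun i hi => by simpa using h5 0 i hi y hy, fun y hy => ⟨?_, fun a b h => ?_⟩⟩
  · refine (gam_le_iff hg hy (by positivity)).2 fun v => ?_
    have e1 : (fun y => ∑ i ∈ s, χ i y * F i y) =ᶠ[𝓝 y]
        fun z => ∑ i ∈ s, χ i z * (F i z - f y) - -f y := by
      filter_upwards [hg.isOpen.mem_nhds hy] with z hz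
      simp only [mul_sub, Finset.sum_sub_distrib, ← Finset.sum_mul, h2 z hz]
      ring
    rw [dF_congr e1, dF_sub_const, dF_sum fun i hi => h5 _ i hi y hy, _root_.sum_apply]
    have q := Real.sqrt_nonneg (g y v v)
    have e2 : ∀ i ∈ s, |dF E (fun z => χ i z * (F i z - f y)) y v| ≤
        (χ i y * (L + ε / 2) + L * ε' * C i) * √(g y v v) := fun i hi => by
      have p1 := (h1 i hi).2.2.2.2.1 y
      have p2 := c1 i hi
      by_cases hk : y ∈ K i
      · obtain ⟨f1, f2, f3⟩ := hF i hi y ((h1 i hi).2.2.1 hk).2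
        have f4 := (gam_le_iff hg hy (by positivity)).1 f2 v
        have f5 := (gam_le_iff hg hy p2).1 (c2 i hi y hy) v
        have f6 := f3 (f y - L * ε') (f y + L * ε') fun z hz => by
          have := abs_sub_le_iff.1 (hf.le hL p.le (le_of_lt hz))
          constructor <;> linarith [this.1, this.2]
        have f7 : |F i y - f y| ≤ L * ε' := abs_sub_le_iff.2 ⟨by linarith [f6.2], by linarith [f6.1]⟩
        rw [dF_mul ((h1 i hi).2.2.2.1 y hy) (f1.sub contMDiffAt_const), dF_sub_const,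
          _root_.add_apply, _root_.smul_apply, _root_.smul_apply, smul_eq_mul, smul_eq_mul, add_mul]
        refine (abs_add_le _ _).trans (add_le_add ?_ ?_)
        · rw [abs_mul, abs_of_nonneg p1, mul_assoc]
          exact mul_le_mul_of_nonneg_left (f4.trans (mul_le_mul_of_nonneg_right e0 q)) p1
        · rw [abs_mul, mul_assoc]
          exact mul_le_mul f7 f5 (abs_nonneg _) (by positivity)
      · rw [dF_congr (ψ := fun _ => 0) (mem_of_superset (hH.compl_mem (h1 i hi).2.1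
          ((h1 i hi).2.2.1.trans inter_subset_left) hy hk) fun z hz => by
            simp [(h1 i hi).2.2.2.2.2 z hz]), dF_const]
        simp only [_root_.zero_apply, abs_zero]
        positivity
    refine (Finset.abs_sum_le_sum_abs _ _).trans ((Finset.sum_le_sum e2).trans ?_)
    rw [← Finset.sum_mul, Finset.sum_add_distrib, ← Finset.sum_mul, ← Finset.mul_sum, h2 y hy]
    refine mul_le_mul_of_nonneg_right ?_ q
    have e3 : ε' * ((L + 1) * (∑ i ∈ s, C i + 1)) ≤ ε / 2 :=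
      (le_div_iff₀ (by positivity)).1 (min_le_right _ _)
    nlinarith [mul_nonneg p.le hL, mul_nonneg p.le hS]
  · have e4 : ∀ i ∈ s, χ i y * a ≤ χ i y * F i y ∧ χ i y * F i y ≤ χ i y * b := fun i hi => by
      by_cases hk : y ∈ K i
      · have := (hF i hi y ((h1 i hi).2.2.1 hk).2).2.2 a b fun z hz =>
          h z (bl_mono (min_le_left _ _) hz)
        have p1 := (h1 i hi).2.2.2.2.1 y
        exact ⟨mul_le_mul_of_nonneg_left this.1 p1, mul_le_mul_of_nonneg_left this.2 p1⟩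
      · simp [(h1 i hi).2.2.2.2.2 y hk]
    have e5 := Finset.sum_le_sum fun i hi => (e4 i hi).1
    have e6 := Finset.sum_le_sum fun i hi => (e4 i hi).2
    rw [← Finset.sum_mul, h2 y hy, one_mul] at e5 e6
    exact ⟨e5, e6⟩

/-- the version with uniform approximation -/
theorem smooth_lip' (hg : Met g U) (hc : IsCompact U) (hH : Hs U) (hL : 0 ≤ L) (hf : Lip g U f L)
    {ε : ℝ} (hε : 0 < ε) : ∃ w, Sm0 E w U ∧ ∀ y ∈ U, gam g w w y ≤ (L + ε) ^ 2 ∧
      |w y - f y| ≤ ε := by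
  have p : 0 < min ε (ε / (L + 1)) := by positivity
  obtain ⟨w, h1, h2⟩ := smooth_lip hg hc hH hL hf p
  refine ⟨w, h1, fun y hy => ⟨(h2 y hy).1.trans (by gcongr; exact min_le_left _ _), ?_⟩⟩
  have e : L * min ε (ε / (L + 1)) ≤ ε := by
    have : min ε (ε / (L + 1)) * (L + 1) ≤ ε := (le_div_iff₀ (by positivity)).1 (min_le_right _ _)
    nlinarith
  have := (h2 y hy).2 (f y - ε) (f y + ε) fun z hz => by
    have := abs_sub_le_iff.1 ((hf.le hL p.le (le_of_lt hz)).trans e)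
    constructor <;> linarith [this.1, this.2]
  exact abs_sub_le_iff.2 ⟨by linarith [this.2], by linarith [this.1]⟩

/-- the distance from `x`, truncated at level `r` -/
def tr (g : Ten E M) (U : Set M) (x : M) (r : ℝ) (y : M) : ℝ :=
  (min (ed g U x y) (ENNReal.ofReal r)).toReal

theorem lip_tr (g : Ten E M) (U : Set M) (x : M) (r : ℝ) : Lip g U (tr g U x r) 1 := by
  have h : ∀ y z, ed g U y z ≠ ⊤ → tr g U x r z ≤ tr g U x r y + dd g U y z := fun y z h =>
    ENNReal.toReal_le_add (by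
      rw [← min_add_add_right]
      exact min_le_min (ed_triangle x y z) le_self_add)
      (ne_top_of_le_ne_top ENNReal.ofReal_ne_top (min_le_right _ _)) h
  intro y z hyz
  have h1 := h y z hyz
  have h2 := h z y (ed_comm.trans_ne hyz)
  rw [dd_comm] at h2
  exact abs_sub_le_iff.2 ⟨by linarith, by linarith⟩

theorem tr_le {r s : ℝ} {y : M} (h : y ∈ bl g U x s) : tr g U x r y ≤ s :=
  ENNReal.toReal_le_of_le_ofReal (pos_of_mem_bl h).le ((min_le_left _ _).trans (le_of_lt h))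

theorem le_tr {r s : ℝ} {y : M} (h : y ∉ bl g U x s) (hs : s ≤ r) : s ≤ tr g U x r y :=
  (ENNReal.ofReal_le_iff_le_toReal
    (ne_top_of_le_ne_top ENNReal.ofReal_ne_top (min_le_right _ _))).1
    (le_min (not_lt.1 h) (ENNReal.ofReal_le_ofReal hs))

/-- smooth cutoff functions between two balls -/
theorem cutoff_gen (hg : Met g U) (hc : IsCompact U) (hH : Hs U) (x : M) {s r : ℝ} (hs : 0 ≤ s)
    (hr : s < r) : ∃ w, Sm0 E w U ∧ ∀ y ∈ U, w y ∈ Icc (0 : ℝ) 1 ∧ (y ∈ bl g U x s → w y = 1) ∧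
      (y ∉ bl g U x r → w y = 0) ∧ gam g w w y ≤ (3 / (r - s)) ^ 2 := by
  obtain ⟨δ, hδ, rfl⟩ : ∃ δ > 0, r = s + 4 * δ := ⟨(r - s) / 4, by linarith, by ring⟩
  set F : ℝ → ℝ := fun t => max 0 (min 1 ((s + 3 * δ - t) / (2 * δ))) with hF
  have hf : Lip g U (fun y => F (tr g U x (s + 4 * δ) y)) (1 / (2 * δ)) := fun y z h => by
    have q : 0 ≤ 1 / (2 * δ) * dd g U y z := mul_nonneg (by positivity) dd_nonneg
    refine (abs_max_sub_max_le_max _ _ _ _).trans (max_le (by rwa [sub_self, abs_zero]) ?_)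
    refine (abs_min_sub_min_le_max _ _ _ _).trans (max_le (by rwa [sub_self, abs_zero]) ?_)
    rw [← sub_div, abs_div, abs_of_pos (by positivity : 0 < 2 * δ), sub_sub_sub_cancel_left,
      abs_sub_comm, one_div_mul_eq_div]
    gcongr
    simpa using lip_tr g U x _ y z h
  have p : 0 < min δ (1 / (4 * δ)) := by positivity
  obtain ⟨w, h1, h2⟩ := smooth_lip hg hc hH (by positivity) hf p
  refine ⟨w, h1, fun y hy => ⟨(h2 y hy).2 0 1 fun z _ => ⟨le_max_left _ _,
    max_le zero_le_one (min_le_left _ _)⟩, fun h => ?_, fun h => ?_, (h2 y hy).1.trans ?_⟩⟩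
  · refine mem_singleton_iff.1 (Icc_self (1 : ℝ) ▸ (h2 y hy).2 1 1 fun z hz => ?_)
    have := tr_le (r := s + 4 * δ) (bl_add hs (bl_subset_cbl h) (bl_mono (min_le_left _ _) hz))
    rw [Icc_self, mem_singleton_iff, hF]
    simp only
    rw [min_eq_left ((one_le_div (by positivity)).2 (by linarith)), max_eq_right zero_le_one]
  · refine mem_singleton_iff.1 (Icc_self (0 : ℝ) ▸ (h2 y hy).2 0 0 fun z hz => ?_)
    have := le_tr (x := x) (y := z) (s := s + 3 * δ) (r := s + 4 * δ) (fun h' => h (bl_mono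
      (by linarith) (bl_add (by positivity) (bl_subset_cbl h')
        (mem_bl_comm.1 (bl_mono (min_le_left _ _) hz))))) (by linarith)
    rw [Icc_self, mem_singleton_iff, hF]
    exact max_eq_left ((min_le_right _ _).trans
      (div_nonpos_of_nonpos_of_nonneg (by linarith) (by positivity)))
  · have : 1 / (2 * δ) + 1 / (4 * δ) = 3 / (s + 4 * δ - s) := by
      rw [add_sub_cancel_left]; field_simp; norm_num
    rw [← this]
    gcongr
    exact min_le_right _ _

/-- the cutoff function of a ball -/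
theorem cutoff (hg : Met g U) (hc : IsCompact U) (hH : Hs U) (x : M) {r : ℝ} (hr : 0 < r) :
    ∃ w, Sm0 E w U ∧ ∀ y ∈ U, w y ∈ Icc (0 : ℝ) 1 ∧ (y ∈ bl g U x (r / 2) → w y = 1) ∧
      (y ∉ bl g U x r → w y = 0) ∧ gam g w w y ≤ 100 / r ^ 2 := by
  obtain ⟨w, h1, h2⟩ := cutoff_gen hg hc hH x (half_pos hr).le (half_lt_self hr)
  refine ⟨w, h1, fun y hy => ⟨(h2 y hy).1, (h2 y hy).2.1, (h2 y hy).2.2.1,
    (h2 y hy).2.2.2.trans ?_⟩⟩
  rw [sub_half, show (3 / (r / 2)) ^ 2 = 36 / r ^ 2 by field_simp; norm_num]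
  gcongr
  norm_num

end Vale.Agent.P216LS
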