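import Mathlib.MeasureTheory.Covering.Vitali
import Mathlib.MeasureTheory.Integral.Lebesgue.Add
import Mathlib.MeasureTheory.Integral.Lebesgue.Countable

/-! # P216LS: gluing local Sobolev inequalities along a cover of bounded multiplicity -/

open scoped ENNReal
open Set MeasureTheory Function

namespace Vale.Agent.P216LS

theorem glue {X : Type*} [MeasurableSpace X] {μ : Measure X} {Ω W : Set X} (hΩ : μ Ω ≠ ⊤)
    (S B B' B'' : X → Set X) {P e : X → ℝ≥0∞} {A N : ℝ≥0∞} (hN : N ≠ ⊤)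
    (he : AEMeasurable e (μ.restrict Ω)) (m1 : ∀ x ∈ W, MeasurableSet (S x))
    (m2 : ∀ x ∈ W, MeasurableSet (B' x)) (s1 : ∀ x ∈ W, S x ⊆ Ω) (s2 : ∀ x ∈ W, B' x ⊆ Ω)
    (pos : ∀ x ∈ W, 0 < μ (S x))
    (c1 : ∀ x ∈ W, ∀ y ∈ W, (S x ∩ S y).Nonempty → x ∈ B y)
    (c2 : ∀ x ∈ W, ∀ y ∈ W, (B' x ∩ B' y).Nonempty → S y ⊆ B'' x ∧ μ (B'' x) ≤ N * μ (S y))
    (loc : ∀ x ∈ W, ∫⁻ z in B x, P z ∂μ ≤ (A * ∫⁻ z in B' x, e z ∂μ) ^ 3) :
    ∫⁻ z in W, P z ∂μ ≤ N * (A * ∫⁻ z in Ω, e z ∂μ) ^ 3 := by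
  obtain ⟨u, hu, h1, h2⟩ := Vitali.exists_disjoint_subfamily_covering_enlargement S W (fun _ => 0)
    2 one_lt_two (fun _ _ => le_rfl) 0 (fun _ _ => le_rfl)
    fun x hx => nonempty_of_measure_ne_zero (pos x hx).ne'
  have h3 : Pairwise (Disjoint on fun x : u => S x) := h1.subtype _ _
  have : Countable u := by
    have := Measure.countable_meas_pos_of_disjoint_of_meas_iUnion_ne_top μ
      (fun x : u => m1 x (hu x.2)) h3
      (ne_top_of_le_ne_top hΩ (measure_mono (iUnion_subset fun x => s1 x (hu x.2))))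
    rwa [eq_univ_of_forall (s := {x : u | 0 < μ (S x)}) fun x => pos x (hu x.2),
      countable_univ_iff] at this
  have h4 : ∀ z, ∑' x : u, (B' x).indicator (1 : X → ℝ≥0∞) z ≤ N := fun z => by
    by_cases hz : ∃ x : u, z ∈ B' x
    swap
    · rw [tsum_congr fun x => indicator_of_notMem (not_exists.1 hz x) _, tsum_zero]
      exact zero_le
    obtain ⟨x, hx⟩ := hz
    obtain ⟨k1, k2⟩ := c2 x (hu x.2) x (hu x.2) ⟨z, hx, hx⟩
    refine (ENNReal.mul_le_mul_iff_left ((pos x (hu x.2)).trans_le (measure_mono k1)).ne'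
      (ne_top_of_le_ne_top (ENNReal.mul_ne_top hN
        (ne_top_of_le_ne_top hΩ (measure_mono (s1 x (hu x.2))))) k2)).1 ?_
    rw [← ENNReal.tsum_mul_right]
    calc _ ≤ ∑' y : u, N * μ.restrict (B'' x) (S y) := ENNReal.tsum_le_tsum fun y => ?_
      _ ≤ N * μ.restrict (B'' x) univ := by
        rw [ENNReal.tsum_mul_left]
        exact mul_le_mul_right (tsum_measure_le_measure_univ
          (fun y : u => (m1 y (hu y.2)).nullMeasurableSet) fun _ _ h => (h3 h).aedisjoint) _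
      _ = _ := by rw [Measure.restrict_apply_univ]
    by_cases hy : z ∈ B' y
    · obtain ⟨k3, k4⟩ := c2 x (hu x.2) y (hu y.2) ⟨z, hx, hy⟩
      rwa [indicator_of_mem hy, Pi.one_apply, one_mul, Measure.restrict_eq_self _ k3]
    · simp [indicator_of_notMem hy]
  have h5 : ∑' x : u, ∫⁻ z in B' x, e z ∂μ ≤ N * ∫⁻ z in Ω, e z ∂μ := by
    calc _ = ∑' x : u, ∫⁻ z in Ω, (B' x).indicator e z ∂μ := tsum_congr fun x => by
          rw [lintegral_indicator (m2 x (hu x.2)), Measure.restrict_restrict (m2 x (hu x.2)),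
            inter_eq_left.2 (s2 x (hu x.2))]
      _ = ∫⁻ z in Ω, ∑' x : u, (B' x).indicator e z ∂μ :=
          (lintegral_tsum fun x : u => he.indicator (m2 x (hu x.2))).symm
      _ ≤ ∫⁻ z in Ω, N * e z ∂μ := lintegral_mono fun z => ?_
      _ = _ := lintegral_const_mul' _ _ hN
    refine le_trans (le_of_eq ?_) (mul_le_mul_left (h4 z) (e z))
    rw [← ENNReal.tsum_mul_right]
    exact tsum_congr fun x => by by_cases h : z ∈ B' x <;> simp [h]
  calc _ ≤ ∫⁻ z in ⋃ x : u, B x, P z ∂μ := lintegral_mono_set fun x hx => by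
        obtain ⟨y, hy, k, -⟩ := h2 x hx
        exact mem_iUnion.2 ⟨⟨y, hy⟩, c1 x hx y (hu hy) k⟩
    _ ≤ ∑' x : u, ∫⁻ z in B x, P z ∂μ := lintegral_iUnion_le _ _
    _ ≤ ∑' x : u, (A ^ 3 * (∫⁻ z in Ω, e z ∂μ) ^ 2) * ∫⁻ z in B' x, e z ∂μ :=
        ENNReal.tsum_le_tsum fun x => (loc x (hu x.2)).trans (by
          rw [mul_pow, mul_assoc, pow_succ (∫⁻ z in B' x, e z ∂μ) 2]
          gcongr
          exact s2 x (hu x.2))
    _ ≤ (A ^ 3 * (∫⁻ z in Ω, e z ∂μ) ^ 2) * (N * ∫⁻ z in Ω, e z ∂μ) := by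
        rw [ENNReal.tsum_mul_left]; exact mul_le_mul_right h5 _
    _ = _ := by ring

end Vale.Agent.P216LS
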