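import Vale.Agent.P216LS.Ch
import Vale.Agent.P216LS.Glue

/-! # P216LS: Sobolev inequalities on closed three manifolds -/

open scoped Manifold ContDiff Topology ENNReal NNReal
open Set MeasureTheory Metric Filter

set_option maxSynthPendingDepth 3
set_option linter.unusedSectionVars false

noncomputable section

namespace Vale.Agent.P216LS

open P216R P219.RG
open P216ST (Sm0)

variable {M : Type} [TopologicalSpace M] [ChartedSpace E3 M] [IsManifold 𝓘(ℝ, E3) ∞ M]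
  [MeasurableSpace M] [BorelSpace M] {g : Ten E3 M} {U W : Set M} {p Q : M → ℝ}

theorem cont_energy (hg : Met g U) (hp : Sm0 E3 p U) (hQ : ContinuousOn Q U) :
    ContinuousOn (fun y => 4 * gam g p p y + Q y * p y ^ 2) U :=
  (continuousOn_const.mul (sm0_cont hg.isOpen (sm0_gam hg hp hp))).add
    (hQ.mul ((sm0_cont hg.isOpen hp).pow 2))

theorem lint_supp (hg : Met g U) (hp : Sm0 E3 p U) :
    ∫⁻ y in U, ENNReal.ofReal (p y ^ 6) ∂vol g ≤
      ∫⁻ y in U ∩ p ⁻¹' {0}ᶜ, ENNReal.ofReal (p y ^ 6) ∂vol g := by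
  have h := ((sm0_cont hg.isOpen hp).isOpen_inter_preimage hg.isOpen
    (isOpen_compl_singleton (x := 0))).measurableSet
  rw [← lintegral_indicator h, ← lintegral_indicator hg.isOpen.measurableSet]
  refine lintegral_mono fun y => ?_
  by_cases h1 : y ∈ U
  · by_cases h2 : p y = 0 <;> simp [h1, h2]
  · simp [h1]

theorem sob_of_lint (hg : Met g U) (hc : IsCompact U) (hp : Sm0 E3 p U) (hQ : ContinuousOn Q U)
    (h0 : ∀ y ∈ U, p y ≠ 0 → 0 ≤ Q y) {A : ℝ≥0}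
    (h : ∫⁻ y in U, ENNReal.ofReal (p y ^ 6) ∂vol g ≤
      (A * ∫⁻ y in U, ENNReal.ofReal (4 * gam g p p y + Q y * p y ^ 2) ∂vol g) ^ 3) :
    ∫ y in U, p y ^ 6 ∂vol g ≤
      ((A + 1) * ∫ y in U, (4 * gam g p p y + Q y * p y ^ 2) ∂vol g) ^ 3 := by
  have hm := hg.isOpen.measurableSet
  refine real_of_lint (A := A + 1)
    (integrableOn_vol hg hc subset_rfl hm ((sm0_cont hg.isOpen hp).pow 6))
    (integrableOn_vol hg hc subset_rfl hm (cont_energy hg hp hQ))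
    (ae_of_all _ fun y => by positivity) ((ae_restrict_iff' hm).2 (ae_of_all _ fun y hy => ?_))
    (h.trans (by gcongr; exact le_self_add))
  have := gam_nonneg hg hy p
  by_cases h1 : p y = 0
  · simpa [h1] using this
  · have := h0 y hy h1
    simp only [Pi.zero_apply]; positivity

theorem energy_le (hg : Met g U) {S : Set M} (hS : MeasurableSet S) (hU : S ⊆ U) {c : ℝ} {K : ℝ≥0}
    (hK : 1 ≤ K) (h : ∀ y ∈ S, p y ≠ 0 → c ≤ K * Q y) :
    ∫⁻ y in S, ENNReal.ofReal (4 * gam g p p y + c * p y ^ 2) ∂vol g ≤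
      K * ∫⁻ y in S, ENNReal.ofReal (4 * gam g p p y + Q y * p y ^ 2) ∂vol g := by
  rw [← lintegral_const_mul' _ _ ENNReal.coe_ne_top]
  refine setLIntegral_mono' hS fun y hy => ?_
  rw [← ENNReal.ofReal_coe_nnreal, ← ENNReal.ofReal_mul K.coe_nonneg]
  refine ENNReal.ofReal_le_ofReal ?_
  have h1 := mul_le_mul_of_nonneg_right (NNReal.one_le_coe.2 hK) (gam_nonneg hg (hU hy) p)
  by_cases h2 : p y = 0
  · simp only [h2]; linarith
  · nlinarith [mul_le_mul_of_nonneg_right (h y hy h2) (sq_nonneg (p y))]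

/-- the local Sobolev inequality -/
theorem sob_loc {l : ℝ} (hl : 0 < l) : ∃ A > 0, ∀ (M : Type) [TopologicalSpace M]
    [ChartedSpace E3 M] [IsManifold 𝓘(ℝ, E3) ∞ M] [MeasurableSpace M] [BorelSpace M]
    (g : Ten E3 M) (U : Set M) (φ : E3 → M) (r : ℝ) (p : M → ℝ), Met g U → IsCompact U → 0 < r →
    Ch g U φ r l → Sm0 E3 p U → ∫ y in φ '' ball 0 (r / 2), p y ^ 6 ∂vol g ≤
      (A * ∫ y in φ '' ball 0 r, (4 * gam g p p y + r⁻¹ ^ 2 * p y ^ 2) ∂vol g) ^ 3 := by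
  obtain ⟨A, hA⟩ := sob_loc' hl
  refine ⟨(A + 1 : ℝ≥0), by positivity, fun M _ _ _ _ _ g U φ r p hg hc hr h hp => ?_⟩
  have hm := hg.isOpen.measurableSet
  refine real_of_lint
    ((integrableOn_vol hg hc subset_rfl hm ((sm0_cont hg.isOpen hp).pow 6)).mono_set
      (h.mono (half_le_self hr.le)).sub)
    ((integrableOn_vol hg hc subset_rfl hm (cont_energy hg hp continuousOn_const)).mono_set h.sub)
    (ae_of_all _ fun y => by positivity)
    ((ae_restrict_iff' h.isOpen.measurableSet).2 (ae_of_all _ fun y hy => ?_))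
    ((hA M g U φ r p hg hr h hp).trans (by gcongr; exact le_self_add))
  have := gam_nonneg hg (h.sub hy) p
  simp only [Pi.zero_apply]; positivity

/-- the Sobolev inequality for functions supported in half of one chart -/
theorem sob_one {l : ℝ} (hl : 1 ≤ l) : ∃ A > 0, ∀ (M : Type) [TopologicalSpace M]
    [ChartedSpace E3 M] [IsManifold 𝓘(ℝ, E3) ∞ M] [MeasurableSpace M] [BorelSpace M]
    (g : Ten E3 M) (U : Set M) (φ : E3 → M) (r : ℝ) (Q p : M → ℝ), Met g U → IsCompact U →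
    ContinuousOn Q U → 0 < r → Ch g U φ r l →
    (∀ y ∈ φ '' ball 0 (r / 2), 1 ≤ l ^ 2 * r ^ 2 * Q y) → Sm0 E3 p U →
    (∀ y ∈ U, y ∉ φ '' ball 0 (r / 2) → p y = 0) → ∫ y in U, p y ^ 6 ∂vol g ≤
      (A * ∫ y in U, (4 * gam g p p y + Q y * p y ^ 2) ∂vol g) ^ 3 := by
  have l0 : 0 < l := by linarith
  obtain ⟨A, hA⟩ := sob_loc' l0
  set K : ℝ≥0 := ⟨l ^ 2, sq_nonneg l⟩
  refine ⟨(A * K : ℝ≥0) + 1, by positivity, fun M _ _ _ _ _ g U φ r Q p hg hc hQ hr h h1 hp h2 =>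
    sob_of_lint hg hc hp hQ (fun y hy h0 => ?_) ?_⟩
  · exact (pos_of_mul_pos_of_nonneg_left' (l := l * r) (by
      rw [mul_pow]; exact one_pos.trans_le (h1 y (by_contra fun k => h0 (h2 y hy k))))).le
  refine (lint_supp hg hp).trans ((lintegral_mono_set fun y hy =>
    by_contra fun k => hy.2 (h2 y hy.1 k)).trans ((hA M g U φ r p hg hr h hp).trans ?_))
  rw [ENNReal.coe_mul, mul_assoc]
  gcongr
  refine (energy_le hg h.isOpen.measurableSet h.sub (one_le_pow₀ hl : (1 : ℝ) ≤ l ^ 2)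
    fun y hy h0 => ?_).trans (mul_le_mul_right (lintegral_mono_set h.sub) _)
  rw [inv_pow, inv_le_iff_one_le_mul₀' (by positivity)]
  exact (h1 y (by_contra fun k => h0 (h2 y (h.sub hy) k))).trans_eq (by change _ = _ * (l ^ 2 * _); ring)

/-- the Sobolev inequality of a closed manifold -/
theorem sob_closed (hg : Met g U) (hc : IsCompact U) (hQ : ContinuousOn Q U) :
    ∃ A > 0, ∃ B > 0, ∀ p, Sm0 E3 p U → ∫ y in U, p y ^ 6 ∂vol g ≤
      (A * ∫ y in U, (4 * gam g p p y + (Q y + B) * p y ^ 2) ∂vol g) ^ 3 := by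
  rcases U.eq_empty_or_nonempty with rfl | ⟨x₀, -⟩
  · exact ⟨1, one_pos, 1, one_pos, by simp⟩
  have : Nonempty M := ⟨x₀⟩
  choose! φ r l h1 h2 h3 h4 using fun x hx => exists_ch hg (x := x) hx
  obtain ⟨s, hs, hc'⟩ := hc.elim_nhds_subcover (fun x => φ x '' ball 0 (r x / 2)) fun x hx =>
    ((h4 x hx).mono (half_le_self (h1 x hx).le)).isOpen.mem_nhds
      ⟨0, mem_ball_self (half_pos (h1 x hx)), h3 x hx⟩
  choose! A hA using fun x hx => sob_loc' (one_pos.trans_le (h2 x hx))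
  obtain ⟨C, c0, hC⟩ := (hc.image_of_continuousOn hQ).isBounded.exists_pos_norm_le
  have e1 : ∀ y ∈ U, ∀ i ∈ s, (r i)⁻¹ ^ 2 ≤ Q y + (C + ∑ i ∈ s, (r i)⁻¹ ^ 2) := fun y hy i hi => by
    have := Finset.single_le_sum (f := fun i => (r i)⁻¹ ^ 2) (fun _ _ => sq_nonneg _) hi
    linarith [neg_abs_le (Q y), show |Q y| ≤ C from hC _ (mem_image_of_mem _ hy)]
  refine ⟨(∑ i ∈ s, A i ^ 3 + 1 : ℝ≥0) + 1, by positivity, C + ∑ i ∈ s, (r i)⁻¹ ^ 2, by positivity,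
    fun p hp => sob_of_lint hg hc hp (Q := fun y => Q y + (C + ∑ i ∈ s, (r i)⁻¹ ^ 2))
      (hQ.add continuousOn_const) (fun y hy _ => ?_) ?_⟩
  · have : 0 ≤ ∑ i ∈ s, (r i)⁻¹ ^ 2 := by positivity
    linarith [neg_abs_le (Q y), show |Q y| ≤ C from hC _ (mem_image_of_mem _ hy)]
  set I := ∫⁻ y in U, ENNReal.ofReal
    (4 * gam g p p y + (Q y + (C + ∑ i ∈ s, (r i)⁻¹ ^ 2)) * p y ^ 2) ∂vol g
  calc _ ≤ ∫⁻ y in ⋃ i : s, φ i '' ball 0 (r i / 2), ENNReal.ofReal (p y ^ 6) ∂vol g :=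
        lintegral_mono_set fun y hy =>
          let ⟨i, hi, k⟩ := mem_iUnion₂.1 (hc' hy); mem_iUnion.2 ⟨⟨i, hi⟩, k⟩
    _ ≤ ∑' i : s, (A i * I) ^ 3 := (lintegral_iUnion_le _ _).trans (ENNReal.tsum_le_tsum fun i => ?_)
    _ = (∑ i ∈ s, A i ^ 3 : ℝ≥0) * I ^ 3 := by
        rw [Finset.tsum_subtype s fun i => (A i * I) ^ 3]
        simp only [mul_pow, ← Finset.sum_mul]
        push_cast
        rfl
    _ ≤ _ := by
        rw [mul_pow, ← ENNReal.coe_pow]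
        gcongr
        exact le_self_add.trans (le_self_pow₀ le_add_self three_ne_zero)
  have k := h4 i (hs i i.2)
  refine (hA i (hs i i.2) M g U _ _ p hg (h1 i (hs i i.2)) k hp).trans ?_
  gcongr
  refine (energy_le hg k.isOpen.measurableSet k.sub (K := 1) le_rfl
    (Q := fun y => Q y + (C + ∑ i ∈ s, (r i)⁻¹ ^ 2))
    fun y hy _ => by simpa using e1 y (k.sub hy) i i.2).trans ?_
  rw [ENNReal.coe_one, one_mul]
  exact lintegral_mono_set k.sub

/-- the Sobolev inequality on a region covered by charts adapted to the scale `Q ^ (-1/2)` -/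
theorem sob_glue {l : ℝ} (hl : 1 ≤ l) : ∃ A > 0, ∀ (M : Type) [TopologicalSpace M]
    [ChartedSpace E3 M] [IsManifold 𝓘(ℝ, E3) ∞ M] [MeasurableSpace M] [BorelSpace M]
    (g : Ten E3 M) (U W : Set M) (Q p : M → ℝ), Met g U → IsCompact U → Hs U → ContinuousOn Q U →
    (∀ x ∈ W, ∃ φ r, φ 0 = x ∧ 0 < r ∧ Ch g U φ r l ∧
      ∀ y ∈ φ '' ball 0 r, 1 ≤ l ^ 2 * r ^ 2 * Q y ∧ r ^ 2 * Q y ≤ l ^ 2) →
    Sm0 E3 p U → (∀ y ∈ U, y ∉ W → p y = 0) → ∫ y in U, p y ^ 6 ∂vol g ≤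
      (A * ∫ y in U, (4 * gam g p p y + Q y * p y ^ 2) ∂vol g) ^ 3 := by
  have l0 : 0 < l := by linarith
  have d0p := d0_pos
  obtain ⟨A, hA⟩ := sob_loc' l0
  obtain ⟨θ, t0, ht⟩ : ∃ θ > 0, 4 * l ^ 4 * θ = 1 := ⟨1 / (4 * l ^ 4), by positivity, by field_simp⟩
  have l2 : 1 ≤ l ^ 2 := one_le_pow₀ hl
  have l4 : 1 ≤ l ^ 4 := one_le_pow₀ hl
  have t1 : θ ≤ 1 := by nlinarith
  set K : ℝ≥0 := ⟨l ^ 2 * θ⁻¹ ^ 2, by positivity⟩
  set N : ℝ≥0 := ⟨l ^ 12 * θ⁻¹ ^ 6, by positivity⟩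
  refine ⟨((N + 1) * (A * K) : ℝ≥0) + 1, by positivity,
    fun M _ _ _ _ _ g U W Q p hg hc hH hQ h hp h0 => ?_⟩
  rcases U.eq_empty_or_nonempty with rfl | ⟨x₀, -⟩
  · simp
  have : Nonempty M := ⟨x₀⟩
  choose! φ r h1 h2 h3 h4 using h
  have w : ∀ x ∈ U ∩ p ⁻¹' {0}ᶜ, x ∈ W := fun x hx => by_contra fun k => hx.2 (h0 x hx.1 k)
  have m : ∀ x ∈ W, ∀ c ≤ 1, Ch g U (φ x) (c * r x) l := fun x hx c hc =>
    (h3 x hx).mono (mul_le_of_le_one_left (h2 x hx).le hc)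
  have i : ∀ x ∈ W, ∀ c ≤ 1, φ x '' ball 0 (c * r x) ⊆ φ x '' ball 0 (r x) := fun x hx c hc =>
    image_mono (ball_subset_ball (mul_le_of_le_one_left (h2 x hx).le hc))
  have b : ∀ x ∈ W, ∀ c ≤ 1, φ x '' ball 0 (c * r x) ⊆ bl g U x (l * (c * r x)) := fun x hx c hc => by
    simpa only [h1 x hx] using (m x hx c hc).sub_bl l0
  have cmp : ∀ x ∈ W, ∀ y ∈ W, ∀ c ≤ 1, (φ x '' ball 0 (c * r x) ∩ φ y '' ball 0 (c * r y)).Nonempty →
      r x ≤ l ^ 2 * r y := fun x hx y hy c hc ⟨z, z1, z2⟩ => by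
    have k1 := (h4 x hx z (i x hx c hc z1)).2
    have k2 := (h4 y hy z (i y hy c hc z2)).1
    refine le_of_sq_le_sq ?_ (by have := h2 y hy; positivity)
    nlinarith [mul_le_mul_of_nonneg_left k1 (by positivity : 0 ≤ l ^ 2 * r y ^ 2),
      mul_le_mul_of_nonneg_left k2 (sq_nonneg (r x))]
  have t2 : θ ^ 2 ≤ 1 := pow_le_one₀ t0.le t1
  refine sob_of_lint hg hc hp hQ (fun y hy k => ?_) ((lint_supp hg hp).trans ((glue
    (vol_lt_top hg hc subset_rfl).ne (fun x => φ x '' ball 0 (θ ^ 2 * r x))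
    (fun x => φ x '' ball 0 (θ * r x / 2)) (fun x => φ x '' ball 0 (θ * r x))
    (fun x => φ x '' ball 0 (r x)) (A := A * K) (N := N)
    (e := fun y => ENNReal.ofReal (4 * gam g p p y + Q y * p y ^ 2)) ENNReal.coe_ne_top
    ((ENNReal.continuous_ofReal.comp_continuousOn (cont_energy hg hp hQ)).aemeasurable
      hg.isOpen.measurableSet)
    (fun x hx => (m x (w x hx) _ t2).isOpen.measurableSet)
    (fun x hx => (m x (w x hx) _ t1).isOpen.measurableSet)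
    (fun x hx => (m x (w x hx) _ t2).sub) (fun x hx => (m x (w x hx) _ t1).sub)
    (fun x hx => vol_pos hg hx.1 ((m x (w x hx) _ t2).isOpen.mem_nhds
      ⟨0, mem_ball_self (by have := h2 x (w x hx); positivity), h1 x (w x hx)⟩))
    (fun x hx y hy k => ?_) (fun x hx y hy k => ⟨fun v hv => ?_, ?_⟩) fun x hx => ?_).trans ?_))
  · have k1 := w y ⟨hy, k⟩
    exact (pos_of_mul_pos_of_nonneg_left' (l := l * r y) (by
      rw [mul_pow]; exact one_pos.trans_le (h4 y k1 y ⟨0, mem_ball_self (h2 y k1), h1 y k1⟩).1)).le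
  · have k1 := cmp x (w x hx) y (w y hy) _ t2 k
    obtain ⟨z, z1, z2⟩ := k
    have k2 := h2 y (w y hy)
    have k3 := bl_add (by positivity) (bl_subset_cbl (b y (w y hy) _ t2 z2))
      (mem_bl_comm.1 (b x (w x hx) _ t2 z1))
    refine ((m y (w y hy) _ t1).mono (half_le_self (by positivity))).bl_sub hH l0 ?_
    rw [h1 y (w y hy)]
    refine bl_mono ?_ k3
    rw [le_div_iff₀ l0]
    have k4 := mul_le_mul_of_nonneg_left k1 (by positivity : 0 ≤ l ^ 2 * θ ^ 2)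
    have k5 : l ^ 2 * (θ ^ 2 * r y) ≤ l ^ 4 * (θ ^ 2 * r y) :=
      mul_le_mul_of_nonneg_right (pow_le_pow_right₀ hl (by norm_num)) (by positivity)
    have k6 : θ * r y = 4 * l ^ 4 * θ * (θ * r y) := by rw [ht, one_mul]
    nlinarith
  · have k1 := cmp y (w y hy) x (w x hx) _ t1 (inter_comm _ _ ▸ k)
    obtain ⟨z, z1, z2⟩ := k
    have k2 := h2 x (w x hx)
    have k2' := h2 y (w y hy)
    have k3 := bl_add (by positivity) (bl_subset_cbl (bl_add (by positivity)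
      (bl_subset_cbl (b x (w x hx) _ t1 z1)) (mem_bl_comm.1 (b y (w y hy) _ t1 z2))))
      (b y (w y hy) _ t2 hv)
    refine (h3 x (w x hx)).bl_sub hH l0 ?_
    rw [h1 x (w x hx)]
    refine bl_mono ?_ k3
    rw [le_div_iff₀ l0]
    have k4 := mul_le_mul_of_nonneg_left k1 (by positivity : 0 ≤ l ^ 2 * θ)
    have k5 : l ^ 2 * (θ * r x) ≤ l ^ 4 * (θ * r x) :=
      mul_le_mul_of_nonneg_right (pow_le_pow_right₀ hl (by norm_num)) (by positivity)
    have k6 : r x = 4 * l ^ 4 * θ * r x := by rw [ht, one_mul]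
    have k7 := mul_le_mul_of_nonneg_left t1 (by positivity : 0 ≤ l ^ 2 * θ * r y)
    have k8 : 0 ≤ l ^ 4 * θ * r x := by positivity
    nlinarith
  · have k1 := cmp x (w x hx) y (w y hy) _ t1 k
    have k2 := h2 x (w x hx)
    have k2' := h2 y (w y hy)
    refine ((h3 x (w x hx)).vol_le hg l0 k2).trans (le_trans ?_ (mul_le_mul_right
      ((m y (w y hy) _ t2).le_vol hg l0 (by positivity)) _))
    rw [← mul_assoc, ← ENNReal.ofReal_coe_nnreal, ← ENNReal.ofReal_mul N.coe_nonneg]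
    refine mul_le_mul_left (ENNReal.ofReal_le_ofReal ?_) _
    calc _ ≤ l ^ 3 * d0 * (l ^ 2 * r y) ^ 3 := by gcongr
      _ = l ^ 12 * θ⁻¹ ^ 6 * (d0 / l ^ 3 * (θ ^ 2 * r y) ^ 3) := by field_simp
  · have k := m x (w x hx) _ t1
    have k2 := h2 x (w x hx)
    refine (hA M g U _ _ p hg (by positivity) k hp).trans ?_
    rw [mul_assoc]
    gcongr
    refine energy_le hg k.isOpen.measurableSet k.sub
      (one_le_mul_of_one_le_of_one_le l2 (one_le_pow₀ ((one_le_inv₀ t0).2 t1)) :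
        (1 : ℝ) ≤ l ^ 2 * θ⁻¹ ^ 2) fun y hy _ => ?_
    rw [inv_pow, inv_le_iff_one_le_mul₀' (by positivity)]
    refine (h4 x (w x hx) y (i x (w x hx) _ t1 hy)).1.trans_eq ?_
    change _ = _ * (l ^ 2 * θ⁻¹ ^ 2 * _)
    field_simp
  · push_cast
    rw [mul_assoc (N + 1 : ℝ≥0∞), mul_pow (N + 1 : ℝ≥0∞)]
    gcongr
    exact le_self_add.trans (le_self_pow₀ le_add_self three_ne_zero)

end Vale.Agent.P216LS
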