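import Vale.Agent.P216LS.TubF

/-! # P216LS: a surgery along a tube admits the entropy cut -/

open scoped Manifold ContDiff Topology ENNReal
open Set MeasureTheory Metric Real Filter

noncomputable section

namespace Vale.Agent.P216LS

open P216R P216SG P216S
open P216ST (Sm0)
open P216E (tri)

theorem cap_bd {s : ℝ} (hs : 0 ≤ s) : ∃ l ≥ 3, ∃ δ₀ > 0, ∀ (G : E3 → Bil E3) (h δ : ℝ),
    NK G h δ → δ ≤ δ₀ → ∀ z ∈ ball (0 : E3) (exp 13),
      (∀ v, h ^ 2 * ‖v‖ ^ 2 ≤ l ^ 2 * srd s h G z v v ∧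
        srd s h G z v v ≤ l ^ 2 * (h ^ 2 * ‖v‖ ^ 2)) ∧
      1 / 2 ≤ h ^ 2 * Sc (srd s h G) z ∧ h ^ 2 * Sc (srd s h G) z ≤ l := by
  obtain ⟨C, δ₀, h0, H⟩ := exists_out
  have e1 : 1 ≤ exp s ^ 2 := one_le_pow₀ (one_le_exp hs)
  have e2 : 1 ≤ exp 13 ^ 2 := one_le_pow₀ (one_le_exp (by norm_num))
  have e3 := le_mul_of_one_le_right (sq_nonneg (exp s)) e2
  have c0 := abs_nonneg C
  obtain ⟨l, l1, l2⟩ : ∃ l, |C| ≤ l ∧ 33 * (exp s ^ 2 * exp 13 ^ 2) ≤ l :=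
    ⟨|C| + 33 * (exp s ^ 2 * exp 13 ^ 2), by linarith, by linarith⟩
  have l3 : l ≤ l ^ 2 := by nlinarith
  refine ⟨l, by linarith, min δ₀ (2 * (s + 13))⁻¹, by positivity, fun G h δ N hδ z hz => ?_⟩
  have d0 := N.dpos
  have d1 : 2 * (s + 13) ≤ δ⁻¹ := (le_inv_comm₀ d0 (by positivity)).1 (hδ.trans (min_le_right _ _))
  have d2 := inv_half δ
  have d3 : δ ≤ 1 / 2 := (inv_le_inv₀ (by norm_num) d0).1 (by linarith)
  have O := H G s h δ N (hδ.trans (min_le_left _ _)) hs (by linarith)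
  have k0 := O.sc z (ball_subset_ball (exp_le_exp.2 (by linarith)) hz)
  refine ⟨fun v => ?_, k0.1, k0.2.trans ((le_abs_self C).trans l1)⟩
  have k1 := abs_le.1 (O.cmp z (ball_subset_ball (exp_le_exp.2 (by linarith)) hz) v)
  have k2 := cap_low (dil s z) v
  have k3 := cap_le_euc (dil s z) v
  have k4 := cap_nonneg (dil s z) v
  have k5 : ‖dil s z‖ ^ 2 ≤ exp s ^ 2 * exp 13 ^ 2 := by
    rw [norm_dil, mul_pow]; gcongr; exact (mem_ball_zero_iff.1 hz).le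
  rw [cpd, comap_dil, smul_apply, smul_apply, smul_eq_mul] at k1
  generalize cap (dil s z) v v = a at *
  generalize srd s h G z v v = S at *
  have k6 : 0 ≤ h ^ 2 * a := by positivity
  have k7 : h ^ 2 * a ≤ h ^ 2 * (exp s ^ 2 * a) := by nlinarith
  have k8 : δ * (h ^ 2 * (exp s ^ 2 * a)) ≤ 1 / 2 * (h ^ 2 * (exp s ^ 2 * a)) := by gcongr
  have k9 : 2 * ‖v‖ ^ 2 ≤ l ^ 2 * a := k2.trans (mul_le_mul_of_nonneg_right (by linarith) k4)
  constructor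
  · calc h ^ 2 * ‖v‖ ^ 2 ≤ h ^ 2 * (l ^ 2 * a / 2) := by gcongr; linarith
      _ = l ^ 2 * (h ^ 2 * a / 2) := by ring
      _ ≤ _ := by gcongr; linarith [k1.1]
  · calc S ≤ 3 / 2 * (h ^ 2 * (exp s ^ 2 * a)) := by linarith [k1.2]
      _ ≤ 3 / 2 * (h ^ 2 * (exp s ^ 2 * (22 * ‖v‖ ^ 2))) := by gcongr
      _ = 33 * exp s ^ 2 * (h ^ 2 * ‖v‖ ^ 2) := by ring
      _ ≤ _ := by gcongr; linarith

variable {M : Type} [TopologicalSpace M] [ChartedSpace E3 M] [IsManifold 𝓘(ℝ, E3) ∞ M]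
  {g : Ten E3 M} {U U' K : Set M} {φ ψ : E3 → M} {h δ ε ε₁ l lo hi σ : ℝ} {p y : M}

/-- a centre on the kept side away from the cut has a good chart on the kept side -/
theorem gd_kept (hs : Hs U) (hN : NB g U ε) (hε : ε ≤ 1 / 25) (H : Neck g U φ h δ) (hδ : δ ≤ ε)
    (hK : Side U φ δ⁻¹ K) (hc : Cen g U p σ ε) (hp : p ∈ K) (hp' : p ∉ φ '' lan 0 12)
    (hl : 3 ≤ l) (hKU : K ⊆ U') : Gd l g U' p := by
  have δ1 := hδ.trans hε
  have δ2 : 25 ≤ δ⁻¹ := (le_inv_comm₀ (by norm_num) H.dpos).2 (by linarith)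
  have j0 := hN _ _ hc
  obtain ⟨χ, N, x, hx, rfl⟩ := hc
  have b : lan (-1) 1 ⊆ lan (-12) 12 := lan_mono (by norm_num) (by norm_num)
  refine gd_neck hN hε N hx hl (mapsTo_iff_image_subset.2 (Subset.trans ?_ hKU))
  refine (hK.subset_or ((tb12 N hε).emb.preconn preconn_lan b) ((tb12 N hε).emb.image_sub b)
    (disjoint_left.2 ?_)).resolve_right
    fun j => disjoint_left.1 j ⟨x, sph_lan (by norm_num) (by norm_num) hx, rfl⟩ hp
  rintro q j ⟨z, hz, rfl⟩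
  have s0 := N.hpos
  have h0 := H.hpos
  have j1 := abs_le.1 (j0 _ (piece_bl' N hε hx (image_mono b j)))
  have j2 := abs_le.1 (hN _ _ ⟨φ, H.mono hδ, z, hz, rfl⟩ _ (mem_bl_self
    (H.emb.mem (sphere_sub_anl H.inv_pos hz)) (by positivity)))
  have j3 : 0 < Sc g (φ z) := pos_of_mul_pos_of_nonneg_left' (l := h) (by linarith [j2.1])
  have j4 : σ ≤ 2 * h := le_of_pow_le_pow_left₀ two_ne_zero (by positivity)
    (le_of_mul_le_mul_right (by nlinarith [j1.2, j2.1]) j3)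
  obtain ⟨w, hw, e⟩ := bl_piece H δ1 hs hz le_rfl
    (bl_mono (by linarith) (mem_bl_comm.1 (piece_bl N hε hx (by norm_num) j)))
  exact hp' ⟨w, ⟨exp_zero ▸ (hK.mem w (lan_mono (by linarith) (by linarith) hw)).1 (e ▸ hp),
    hw.2⟩, e⟩

/-- the region of the slice after surgery on which the cut function lives -/
theorem cut_reg (hg : Met g U) (hU : IsCompact U) (hs : Hs U) (hN : NB g U ε₁) (hε : ε₁ ≤ 1 / 25)
    (e0 : 0 < ε₁) (e1 : ε ≤ ε₁) (e2 : ε ≤ (8 + ε₁⁻¹)⁻¹) (H : Neck g U φ h δ) (hδ : δ ≤ ε)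
    (hK : Side U φ δ⁻¹ K) (hc : IsCut U φ δ⁻¹ K U' id ψ) (hy : y ∈ φ '' sphere 0 1)
    (hT : Tub ε lo hi g U y) (l0 : 0 < lo) (h1 : 2 * lo * h ^ 2 ≤ 1) (h2 : 2 ≤ hi * h ^ 2)
    (hl : 3 ≤ l) (h3 : ∀ z ∈ ball (0 : E3) (exp 12), Gd l g U' (ψ z)) :
    ∃ T C v, IsOpen T ∧ IsCompact C ∧ C ⊆ U ∧ C ⊆ U' ∧ (v = lo ∨ v = hi) ∧
      (∀ p ∈ T, Gd l g U' p) ∧ ψ '' ball 0 (exp 12) ⊆ T ∧
      (∀ p ∈ U', p ∉ ψ '' ball 0 (exp 12) → p ∈ C) ∧ (∀ p ∈ T, p ∈ C → ∃ σ, Cen g U p σ ε₁) ∧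
      ∀ p ∈ U', p ∉ T → (v ≤ 2 * Sc g p ∧ Sc g p ≤ 2 * v) ∨ ∃ N ∈ 𝓝 p, Disjoint N T := by
  have δ2 : 25 ≤ δ⁻¹ := (le_inv_comm₀ (by norm_num) H.dpos).2 (by linarith)
  obtain ⟨T, v, t1, t2, t3, t4, t5, t6⟩ := tube_reg hg hs (fun p σ k => hN p σ (k.mono e1))
    (e1.trans hε) H hδ hK hy hT l0 h1 h2
  have b0 : exp 12 ≤ exp δ⁻¹ := exp_le_exp.2 (by linarith)
  have b1 : 1 < exp 12 := one_lt_exp_iff.2 (by norm_num)
  have KU : K ⊆ U' := hc.mem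
  have k1 : φ '' lan 0 12 ⊆ ψ '' ball 0 (exp 12) := by
    rintro _ ⟨z, hz, rfl⟩
    exact ⟨z, ann_sub_ball hz, hc.eq z ⟨exp_zero ▸ hz.1, hz.2.trans_le b0⟩⟩
  have k2 : ∀ p ∈ K, p ∈ ψ '' ball 0 (exp 12) ∪ T → p ∈ T := by
    rintro p hp (⟨z, hz, e⟩ | k)
    · have := (hc.eq_iff H.emb H.inv_pos (ball_subset_ball b0 hz) (hK.sub hp)).1 e
      exact t3 ⟨z, ⟨exp_zero ▸ this.1, mem_ball_zero_iff.1 hz⟩, this.2⟩
    · exact k
  have k3 : ∀ p ∈ U', p ∉ ψ '' ball 0 (exp 12) → p ∈ K := fun p hp k =>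
    (hc.cover.subset hp).elim (fun ⟨_, a, b⟩ => b ▸ a)
      fun a => (k (image_mono (closedBall_subset_ball b1) a)).elim
  have k4 : ∀ p ∈ T, ∃ σ, Cen g U p σ ε₁ := fun p hp =>
    let ⟨q, σ, a, b⟩ := t5 p hp
    ⟨σ, a.shift (d := 8) hs (e1.trans hε) e0 ((le_inv_comm₀ (H.dpos.trans_le hδ)
      (by positivity)).1 e2) (bl_mono (by linarith [a.hpos]) b)⟩
  refine ⟨ψ '' ball 0 (exp 12) ∪ T, K \ φ '' ann 1 (exp 12), v,
    (hc.cap.isOpen_image isOpen_ball (ball_subset_ball b0)).union t1, hK.isCompact H.emb hU b1 b0,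
    sdiff_subset.trans hK.sub, sdiff_subset.trans KU, t4, fun p hp => ?_, subset_union_left,
    fun p hp k => ⟨k3 p hp k, fun j => k (k1 (ann_one ▸ j))⟩,
    fun p hp k => k4 p (k2 p k.1 hp), fun p hp k => ?_⟩
  · by_cases k : p ∈ ψ '' ball 0 (exp 12)
    · obtain ⟨z, hz, rfl⟩ := k; exact h3 z hz
    · obtain ⟨σ, j⟩ := k4 p (hp.resolve_left k)
      exact gd_kept hs hN hε H (hδ.trans e1) hK j (t2 (hp.resolve_left k)) (fun a => k (k1 a)) hl KU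
  · have j := k3 p hp fun a => k (.inl a)
    exact (t6 p j fun a => k (.inr a)).imp_right fun ⟨N, a, b⟩ =>
      ⟨N ∩ K, inter_mem a (hK.isOpen.mem_nhds j),
        disjoint_left.2 fun q c d => disjoint_left.1 b c.1 (k2 q c.2 d)⟩

theorem lg_pos {w r : ℝ} (hw : 0 < w) (hr : 0 < r) : lg 4 (log w) r = 4 * log (r / w) := by
  rw [lg, log_div hr.ne' hw.ne']

theorem lg_neg {w r : ℝ} (hw : 0 < w) (hr : 0 < r) : lg (-4) (log w) r = 4 * log (w / r) := by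
  rw [lg, log_div hw.ne' hr.ne']; ring

/-- **a surgery along a tube admits the entropy cut** -/
theorem cutd {s c : ℝ} (hs : 0 ≤ s) (hc : 0 < c) : ∃ ε > 0, ∃ A > 0, ∃ c₁ ≥ 1,
    ∀ (M : Type) [TopologicalSpace M] [ChartedSpace E3 M] [IsManifold 𝓘(ℝ, E3) ∞ M]
      [MeasurableSpace M] [BorelSpace M] (g : Ten E3 M) (U U' K : Set M) (φ ψ : E3 → M) (y : M)
      (h δ lo hi η : ℝ), Met g U → IsCompact U → Hs U → Met g U' → IsCompact U' → Hs U' →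
      Neck g U φ h δ → δ ≤ ε → Side U φ δ⁻¹ K → IsCut U φ δ⁻¹ K U' id ψ →
      EqOn (comap ψ g) (srd s h (comap φ g)) (ball 0 (exp δ⁻¹)) → y ∈ φ '' sphere 0 1 →
      Tub ε lo hi g U y → 0 < lo → c₁ * lo * h ^ 2 ≤ 1 → c₁ ≤ hi * h ^ 2 →
      (1 + c₁ * lo) * (c₁ * lo * h ^ 2) ^ 3 ≤ η → (1 + hi) * c₁ ^ 3 ≤ η * (hi * h ^ 2) ^ 3 →
      CutD c A η g U U' := by
  obtain ⟨l, hl, δ₀, d0, B⟩ := cap_bd hs
  obtain ⟨A, A0, S⟩ := sob_glue (l := l) (by linarith)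
  obtain ⟨εa, a0, Na⟩ := exists_nf_bl (η := 1 / 10) (by norm_num) 25
  obtain ⟨εb, b0, Nb⟩ := exists_nf (η := min (c / 128) (1 / 2)) (by positivity)
  obtain ⟨ε₁, e0, e1, e2, e3, e4⟩ : ∃ e > 0, e ≤ 1 / 25 ∧ e ≤ εa ∧ e ≤ εb ∧ e ≤ δ₀ :=
    ⟨min (min (1 / 25) εa) (min εb δ₀), by positivity, by simp, by simp, by simp, by simp⟩
  refine ⟨min ε₁ (8 + ε₁⁻¹)⁻¹, by positivity, A, A0, 6 * l, by linarith,
    fun M _ _ _ _ _ g U U' K φ ψ y h δ lo hi η hg hU hH hg' hU' hH' H hδ hK hc he hy hT l0 h1 h2 h3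
      h4 => ?_⟩
  have d1 := hδ.trans (min_le_left _ _)
  have d2 : 25 ≤ δ⁻¹ := (le_inv_comm₀ (by norm_num) H.dpos).2 (by linarith)
  have hh := pow_pos H.hpos 2
  have lh := mul_pos l0 hh
  have b1 : ball (0 : E3) (exp 13) ⊆ ball 0 (exp δ⁻¹) := ball_subset_ball (exp_le_exp.2 (by linarith))
  have b2 : exp 12 + 1 ≤ exp 13 := by
    rw [show (13 : ℝ) = 12 + 1 by norm_num, exp_add]
    nlinarith [add_one_le_exp (1 : ℝ), add_one_le_exp (12 : ℝ)]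
  have B1 := B _ h δ (nk_of_neck hg H) (d1.trans e4)
  have B2 : ∀ z ∈ ball (0 : E3) (exp 13), 1 / 2 ≤ h ^ 2 * Sc g (ψ z) ∧ h ^ 2 * Sc g (ψ z) ≤ l :=
    fun z hz => by
      rw [← (li_comap hg' hc.cap.ld (b1 hz) (hc.cap.mem (b1 hz))).Sc,
        Sc_congr (he.eventuallyEq_of_mem (isOpen_ball.mem_nhds (b1 hz)))]
      exact (B1 z hz).2
  obtain ⟨T, C, v, t1, t2, t3, t4, t5, t6, t7, t8, t9, t10⟩ := cut_reg hg hU hH
    (fun p σ k q hq => (Na M g U p σ _ hg hH k e2 q hq).sc) e1 e0 (min_le_left _ _)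
    (min_le_right _ _) H hδ hK hc hy hT l0 (by nlinarith) (by linarith) hl fun z hz => by
      have b3 : ball z 1 ⊆ ball 0 (exp 13) := ball_subset_ball' (by
        rw [dist_zero_right]; linarith [mem_ball_zero_iff.1 hz])
      refine gd_of_emb hc.cap (b3.trans b1) one_pos H.hpos
        (fun w hw => he (b1 (b3 hw)) ▸ (B1 w (b3 hw)).1) fun w hw => ?_
      have := B2 w (b3 hw)
      rw [mul_one, mul_assoc]
      exact ⟨by nlinarith [this.1], by nlinarith [this.2]⟩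
  have B3 : ∀ p ∈ ψ '' ball 0 (exp 12), 1 / 2 ≤ h ^ 2 * Sc g p ∧ h ^ 2 * Sc g p ≤ l := by
    rintro _ ⟨z, hz, rfl⟩
    exact B2 z (ball_subset_ball (by linarith) hz)
  have η0 : 0 ≤ η := le_trans (by positivity) h3
  have key : ∀ (a m X Λ : ℝ), |a| = 4 → 3 ≤ X → 0 ≤ Λ → 1 + Λ ≤ η * X ^ 3 →
      (∀ r > 0, 1 / 2 ≤ h ^ 2 * r → h ^ 2 * r ≤ l → 4 * log X ≤ lg a m r) →
      (∀ r > 0, v ≤ 2 * r → r ≤ 2 * v → lg a m r ≤ 0) →
      (∀ r > 0, 0 ≤ lg a m r → lg a m r ≤ 1 → r ≤ Λ) → 0 < v → CutD c A η g U U' :=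
    fun a m X Λ ha hX hΛ k1 k2 k3 k4 v0 => by
      obtain ⟨k, j1, j2, j3⟩ := exists_K hX
      refine ⟨_, k, Λ, C, cutF_of (m := m) hg' t1 ha (min_le_right (c / 128) _)
        (by linarith [min_le_left (c / 128) (1 / 2)]) j1 hΛ t2 t3 t4 t6
        (fun p hp j => t8 p hp fun j' => (j (t7 j')).not_gt
          (j2.trans_le (k2 _ (t6 p (t7 j')).pos (B3 p j').1 (B3 p j').2)))
        (fun p hp j => let ⟨σ, j'⟩ := t9 p hp j; ⟨σ, Nb M g U p σ _ hg j' e3⟩)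
        (fun p hp j => (t10 p hp j).imp_left fun j' =>
          ⟨by linarith [j'.1], k3 _ (by linarith [j'.1]) j'.1 j'.2⟩) k4
        fun W hW f f1 f2 => ?_, k1.trans (by gcongr)⟩
      simpa only [add_zero] using S M g U' W (Sc g) f hg' hU' hH'
        (sm0_cont hg'.isOpen (P216EO.sm0_Sc hg')) hW f1 f2
  rcases t5 with rfl | rfl
  · have l2 := mul_pos two_pos l0
    have X1 : 6 * l / 4 * 1 = 6 * l * v * h ^ 2 * (4 * v * h ^ 2)⁻¹ := by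
      have := H.hpos.ne'
      field_simp
    have X0 : 0 < (4 * v * h ^ 2)⁻¹ := by positivity
    refine key 4 (log (2 * v)) (4 * v * h ^ 2)⁻¹ (6 * v) (by norm_num) (by nlinarith)
      (by positivity) ?_ (fun r r0 k _ => ?_) (fun r r0 _ k => ?_) (fun r r0 _ k => ?_) l0
    · calc 1 + 6 * v ≤ (1 + 6 * l * v) * (6 * l / 4 * 1) ^ 3 :=
            le_trans (by nlinarith) (le_mul_of_one_le_right (by positivity)
              (one_le_pow₀ (by linarith)))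
        _ = (1 + 6 * l * v) * (6 * l * v * h ^ 2) ^ 3 * (4 * v * h ^ 2)⁻¹ ^ 3 := by
            rw [X1]; ring
        _ ≤ _ := by gcongr
    · rw [lg_pos l2 r0]
      gcongr
      rw [inv_le_iff_one_le_mul₀' (by positivity), ← mul_div_assoc, one_le_div l2]
      nlinarith
    · rw [lg_pos l2 r0]
      linarith [log_nonpos (by positivity) ((div_le_one l2).2 k)]
    · rw [lg_pos l2 r0] at k
      have := (log_le_iff_le_exp (by positivity : 0 < r / (2 * v))).1 (show _ ≤ 1 by linarith)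
      rw [div_le_iff₀ l2] at this
      nlinarith [exp_one_lt_d9]
  · have v0 : 0 < v := pos_of_mul_pos_of_nonneg_left' (l := h) (by linarith)
    have l2 := half_pos v0
    have l3 : 0 < 2 * l := by linarith
    refine key (-4) (log (v / 2)) (v * h ^ 2 / (2 * l)) v (by norm_num)
      ((le_div_iff₀ l3).2 (by linarith)) v0.le ?_ (fun r r0 _ k => ?_) (fun r r0 k _ => ?_)
      (fun r r0 k _ => ?_) v0
    · rw [div_pow, ← mul_div_assoc, le_div_iff₀ (by positivity)]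
      refine le_trans ?_ h4
      gcongr; norm_num
    · rw [lg_neg l2 r0]
      refine mul_le_mul_of_nonneg_left (log_le_log (by positivity) ?_) (by norm_num)
      rw [div_le_div_iff₀ l3 r0]
      nlinarith
    · rw [lg_neg l2 r0]
      linarith [log_nonpos (by positivity) ((div_le_one r0).2 (show v / 2 ≤ r by linarith))]
    · rw [lg_neg l2 r0] at k
      have := (log_nonneg_iff (by positivity : 0 < v / 2 / r)).1 (by linarith)
      rw [one_le_div r0] at this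
      linarith

/-- the same with the error `η h³` for small `h` and `hi ≥ h⁻⁵` -/
theorem cutd' {s c : ℝ} (hs : 0 ≤ s) (hc : 0 < c) : ∃ ε > 0, ∃ A > 0, ∀ lo > 0, ∀ η > 0, ∃ h₀ > 0,
    ∀ (M : Type) [TopologicalSpace M] [ChartedSpace E3 M] [IsManifold 𝓘(ℝ, E3) ∞ M]
      [MeasurableSpace M] [BorelSpace M] (g : Ten E3 M) (U U' K : Set M) (φ ψ : E3 → M) (y : M)
      (h δ hi : ℝ), Met g U → IsCompact U → Hs U → Met g U' → IsCompact U' → Hs U' →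
      Neck g U φ h δ → δ ≤ ε → Side U φ δ⁻¹ K → IsCut U φ δ⁻¹ K U' id ψ →
      EqOn (comap ψ g) (srd s h (comap φ g)) (ball 0 (exp δ⁻¹)) → y ∈ φ '' sphere 0 1 →
      Tub ε lo hi g U y → h ≤ h₀ → 1 ≤ hi * h ^ 5 → CutD c A (η * h ^ 3) g U U' := by
  obtain ⟨ε, e0, A, A0, c₁, c1, H⟩ := cutd hs hc
  refine ⟨ε, e0, A, A0, fun lo l0 η η0 => ?_⟩
  have c0 : 0 < c₁ := by linarith
  have : ∀ᶠ h in 𝓝 (0 : ℝ), h < 1 ∧ c₁ * lo * h < 1 ∧ c₁ * h < 1 ∧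
      (1 + c₁ * lo) * (c₁ * lo) ^ 3 * h < η ∧ 2 * c₁ ^ 3 * h < η := by
    have k : ∀ a b : ℝ, 0 < b → ∀ᶠ h in 𝓝 (0 : ℝ), a * h < b := fun a b hb =>
      (continuous_const.mul continuous_id).continuousAt.eventually_lt continuousAt_const
        (by simpa using hb)
    exact (eventually_lt_nhds one_pos).and ((k _ _ one_pos).and ((k _ _ one_pos).and
      ((k _ _ η0).and (k _ _ η0))))
  obtain ⟨r, r0, hr⟩ := Metric.eventually_nhds_iff.1 this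
  refine ⟨r / 2, half_pos r0, fun M _ _ _ _ _ g U U' K φ ψ y h δ hi hg hU hH hg' hU' hH' N hδ hK hc
    he hy hT h1 h2 => ?_⟩
  have h0 := N.hpos
  obtain ⟨k1, k2, k3, k4, k5⟩ := @hr h (by rw [dist_zero_right, norm_of_nonneg h0.le]; linarith)
  have p : ∀ m n : ℕ, m ≤ n → h ^ n ≤ h ^ m := fun m n => pow_le_pow_of_le_one h0.le k1.le
  have i0 : 0 < hi := by
    by_contra! a
    nlinarith [pow_pos h0 5]
  have i1 : 1 ≤ hi := h2.trans (mul_le_of_le_one_right i0.le (by simpa using p 0 5 (by norm_num)))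
  refine H M g U U' K φ ψ y h δ lo hi _ hg hU hH hg' hU' hH' N hδ hK hc he hy hT l0 ?_ ?_ ?_ ?_
  · exact le_trans (by gcongr; simpa using p 1 2 (by norm_num)) k2.le
  · refine le_of_mul_le_mul_right (k3.le.trans (h2.trans ?_)) h0
    rw [mul_assoc, ← pow_succ]
    exact mul_le_mul_of_nonneg_left (p 3 5 (by norm_num)) i0.le
  · calc _ = (1 + c₁ * lo) * (c₁ * lo) ^ 3 * h ^ 3 * h ^ 3 := by ring
      _ ≤ (1 + c₁ * lo) * (c₁ * lo) ^ 3 * h * h ^ 3 := by gcongr; simpa using p 1 3 (by norm_num)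
      _ ≤ _ := by gcongr
  · refine le_of_mul_le_mul_right ?_ h0
    calc _ ≤ (hi + hi) * c₁ ^ 3 * h := by gcongr
      _ = 2 * c₁ ^ 3 * h * hi * 1 ^ 2 := by ring
      _ ≤ η * hi * (hi * h ^ 5) ^ 2 := by gcongr
      _ = _ := by ring

end Vale.Agent.P216LS
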