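import Vale.Agent.P216SG.Neck
import Vale.Agent.P216E.Inst

/-! # P216LS: the tube through a surgery neck and the data of the entropy cut (definitions) -/

open scoped Manifold ContDiff Topology ENNReal
open Set MeasureTheory Metric Real

noncomputable section

namespace Vale.Agent.P216LS

open P216R P216SG
open P216ST (Sm0)
open P216E (tri)

variable {M : Type} [TopologicalSpace M] [ChartedSpace E3 M]

/-- a minimising segment through `y`; the scalar curvature at both ends is far outside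
`[lo, hi]`, and the points with scalar curvature in `[lo, hi]` are centres of `ε`-necks -/
def Tub (ε lo hi : ℝ) (g : Ten E3 M) (U : Set M) (y : M) : Prop :=
  ∃ γ l s, Seg g U γ l ∧ s ∈ Icc 0 l ∧ γ s = y ∧ Sc g (γ 0) ∉ Icc (lo / 2) (2 * hi) ∧
    Sc g (γ l) ∉ Icc (lo / 2) (2 * hi) ∧
    ∀ t ∈ Icc 0 l, Sc g (γ t) ∈ Icc lo hi → Cen g U (γ t) (√(Sc g (γ t)))⁻¹ ε

/-- the hypotheses of the entropy cut on the slice `U'` after the surgery of `U` -/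
structure CutF [MeasurableSpace M] (c A : ℝ) (g : Ten E3 M) (U U' : Set M) (f : M → ℝ) (K : ℕ)
    (Λ : ℝ) (C : Set M) : Prop where
  sm : Sm0 E3 f U'
  two : 2 ≤ K
  nonneg : 0 ≤ Λ
  cpt : IsCompact C
  old : C ⊆ U
  new : C ⊆ U'
  mem : ∀ x ∈ U', f x ≤ K → x ∈ C
  der : ∀ x ∈ U', 1 / 2 ≤ f x → f x ≤ K → gam g f f x ≤ c * Sc g x ∧ |lap g f x| ≤ c * Sc g x
  le : ∀ x ∈ U', 1 / 2 ≤ f x → f x ≤ 1 → Sc g x ≤ Λ
  pos : ∀ x ∈ U', 0 < f x → 0 ≤ Sc g x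
  sob : (tri g U').Sob {x | 0 < f x} A 0

/-- the entropy cut is possible with the error `η` -/
def CutD [MeasurableSpace M] (c A η : ℝ) (g : Ten E3 M) (U U' : Set M) : Prop :=
  ∃ f K Λ C, CutF c A g U U' f K Λ C ∧ 1 + Λ ≤ η * 5 ^ K

theorem CutD.mono [MeasurableSpace M] {c A η η' : ℝ} {g : Ten E3 M} {U U' : Set M}
    (h : CutD c A η g U U') (e : η ≤ η') : CutD c A η' g U U' :=
  let ⟨f, K, Λ, C, h1, h2⟩ := h
  ⟨f, K, Λ, C, h1, h2.trans (mul_le_mul_of_nonneg_right e (by positivity))⟩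

variable {ε ε' lo hi : ℝ} {g g' : Ten E3 M} {U : Set M} {y : M}

theorem Tub.mono (h : Tub ε lo hi g U y) (e : ε ≤ ε') : Tub ε' lo hi g U y :=
  let ⟨γ, l, s, h1, h2, h3, h4, h5, h6⟩ := h
  ⟨γ, l, s, h1, h2, h3, h4, h5, fun t ht k => (h6 t ht k).mono e⟩

theorem Tub.congr (h : Tub ε lo hi g U y) (hU : IsOpen U) (e : EqOn g' g U) :
    Tub ε lo hi g' U y := by
  obtain ⟨γ, l, s, h1, h2, h3, h4, h5, h6⟩ := h
  have k : ∀ t ∈ Icc 0 l, Sc g' (γ t) = Sc g (γ t) := fun t ht =>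
    Sc_congr (e.eventuallyEq_of_mem (hU.mem_nhds (h1.mem ht)))
  have l0 := h2.1.trans h2.2
  refine ⟨γ, l, s, ⟨h1.cont, ed_congr e ▸ h1.min⟩, h2, h3, by rwa [k 0 ⟨le_rfl, l0⟩],
    by rwa [k l ⟨l0, le_rfl⟩], fun t ht => ?_⟩
  rw [k t ht]
  exact fun a => (h6 t ht a).congr e

end Vale.Agent.P216LS
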