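import Vale.Agent.P216LS.Tub
import Vale.Agent.P216FA.Defs

/-! # P216LS: tubes from canonical neighbourhoods -/

open scoped Manifold ContDiff Topology ENNReal
open Set MeasureTheory Metric Real

noncomputable section

namespace Vale.Agent.P216LS

open P216R P216SG P216FA

variable {M : Type} [TopologicalSpace M] [ChartedSpace E3 M] [MeasurableSpace M]
  {ε lo hi C A w l s : ℝ} {g : Ten E3 M} {U : Set M} {γ : ℝ → M}

omit [MeasurableSpace M] in
theorem seg_dd (h : Seg g U γ l) {t : ℝ} (hs : s ∈ Icc 0 l) (ht : t ∈ Icc 0 l) :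
    dd g U (γ s) (γ t) = |s - t| := by
  rw [dd, h.min s hs t ht, ENNReal.toReal_ofReal (abs_nonneg _)]

/-- a point of a minimising segment whose ends have a very different curvature is a centre -/
theorem cen_of_cn (h : Seg g U γ l) (hs : s ∈ Icc 0 l) (H : CN ε C A w g U (γ s))
    (h0 : C * Sc g (γ 0) < Sc g (γ s) ∨ C * Sc g (γ s) < Sc g (γ 0))
    (h1 : C * Sc g (γ l) < Sc g (γ s) ∨ C * Sc g (γ s) < Sc g (γ l)) :
    Cen g U (γ s) (sg g (γ s)) ε := by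
  have l0 : (0 : ℝ) ∈ Icc 0 l := ⟨le_rfl, hs.1.trans hs.2⟩
  have l1 : l ∈ Icc 0 l := ⟨hs.1.trans hs.2, le_rfl⟩
  have key : ∀ t ∈ Icc 0 l, C * Sc g (γ t) < Sc g (γ s) ∨ C * Sc g (γ s) < Sc g (γ t) →
      A * sg g (γ s) ≤ dd g U (γ s) (γ t) := fun t ht k => by
    rw [seg_dd h hs ht]
    by_contra! a
    have := H.dt.two (γ t) (by
      rw [bl, mem_ofPred, h.min s hs t ht]
      exact (ENNReal.ofReal_lt_ofReal_iff_of_nonneg (abs_nonneg _)).2 a)
    rcases k with k | k <;> linarith [this.1, this.2]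
  refine H.nt.neck ⟨_, h.mem l0, _, h.mem l1, key 0 l0 h0, key l l1 h1, ?_⟩
  have : 0 ≤ sg g (γ s) := inv_nonneg.2 (sqrt_nonneg _)
  rw [seg_dd h hs l0, seg_dd h hs l1, seg_dd h l0 l1, abs_of_nonneg (sub_nonneg.2 hs.1),
    abs_of_nonpos (sub_nonpos.2 hs.2), abs_of_nonpos (sub_nonpos.2 l1.1)]
  linarith

theorem tub_of_cn (h : Seg g U γ l) (hs : s ∈ Icc 0 l) (hC : 2 ≤ C) (hl : 0 ≤ lo)
    (h0 : C * Sc g (γ 0) < lo) (h1 : C * hi < Sc g (γ l))
    (H : ∀ t ∈ Icc 0 l, Sc g (γ t) ∈ Icc lo hi → CN ε C A w g U (γ t)) :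
    Tub ε lo hi g U (γ s) :=
  ⟨γ, l, s, h, hs, rfl, fun k => by nlinarith [k.1], fun k => by nlinarith [k.1, k.2],
    fun t ht k => cen_of_cn h ht (H t ht k) (.inl (h0.trans_le k.1))
      (.inr (lt_of_le_of_lt (by gcongr; exact k.2) h1))⟩

end Vale.Agent.P216LS
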