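import Vale.Agent.P216LS.Euc
import Vale.Agent.P216LS.PoU
import Vale.Agent.P216FI.Vol2

/-! # P216LS: charts of bounded distortion, the local Sobolev inequality -/

open scoped Manifold ContDiff Topology ENNReal NNReal
open Set MeasureTheory Metric Filter

set_option maxSynthPendingDepth 3
set_option linter.unusedSectionVars false

noncomputable section

namespace Vale.Agent.P216LS

open P216R P219.RG
open P216ST (Sm0)
open P210.R2.H53 (gradG gamG dens)

variable {M : Type} [TopologicalSpace M] [ChartedSpace E3 M]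

/-- `φ` is a chart of radius `r` and distortion `l` -/
structure Ch (g : Ten E3 M) (U : Set M) (φ : E3 → M) (r l : ℝ) : Prop where
  ld : LD E3 φ (ball 0 r)
  inj : InjOn φ (ball 0 r)
  maps : MapsTo φ (ball 0 r) U
  lo : ∀ a ∈ ball (0 : E3) r, ∀ v, ‖v‖ ^ 2 ≤ l ^ 2 * comap φ g a v v
  hi : ∀ a ∈ ball (0 : E3) r, ∀ v, comap φ g a v v ≤ l ^ 2 * ‖v‖ ^ 2

variable [IsManifold 𝓘(ℝ, E3) ∞ M] {g : Ten E3 M} {U : Set M} {φ : E3 → M} {r s l : ℝ} {x : M}

theorem Ch.mono (h : Ch g U φ r l) (hs : s ≤ r) : Ch g U φ s l :=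
  have e := ball_subset_ball (x := (0 : E3)) hs
  ⟨h.ld.mono isOpen_ball e, h.inj.mono e, h.maps.mono_left e, fun a ha => h.lo a (e ha),
    fun a ha => h.hi a (e ha)⟩

theorem Ch.mono_l (h : Ch g U φ r l) (hg : Met g U) (hl : 0 ≤ l) {l' : ℝ} (hl' : l ≤ l') :
    Ch g U φ r l' :=
  ⟨h.ld, h.inj, h.maps, fun a ha v => (h.lo a ha v).trans (mul_le_mul_of_nonneg_right (by gcongr)
    (hg.nonneg (h.maps ha) _)), fun a ha v => (h.hi a ha v).trans (by gcongr)⟩

theorem Ch.cmp (h : Ch g U φ r l) (hg : Met g U) {a : E3} (ha : a ∈ ball (0 : E3) r) :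
    Cmp (comap φ g a) l := ⟨fun _ _ => hg.symm _ (h.maps ha) _ _, h.lo a ha, h.hi a ha⟩

theorem Ch.isOpen (h : Ch g U φ r l) : IsOpen (φ '' ball 0 r) :=
  h.ld.isOpen_image isOpen_ball subset_rfl

theorem Ch.sub (h : Ch g U φ r l) : φ '' ball 0 r ⊆ U := h.maps.image_subset

theorem Ch.ed_le (h : Ch g U φ r l) (hl : 0 ≤ l) {a b : E3} (ha : a ∈ ball (0 : E3) r)
    (hb : b ∈ ball (0 : E3) r) : ed g U (φ a) (φ b) ≤ ENNReal.ofReal (l * ‖a - b‖) := by
  have := (h.ld.ed_le h.maps a b).trans (ed_le_norm (convex_ball _ _) ha hb h.hi)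
  rwa [Real.sqrt_sq hl] at this

theorem Ch.sub_bl (h : Ch g U φ r l) (hl : 0 < l) : φ '' ball 0 r ⊆ bl g U (φ 0) (l * r) := by
  rintro _ ⟨a, ha, rfl⟩
  have hr := pos_of_mem_ball ha
  refine (h.ed_le hl.le (mem_ball_self hr) ha).trans_lt
    ((ENNReal.ofReal_lt_ofReal_iff (by positivity)).2 ?_)
  rw [zero_sub, norm_neg]
  exact mul_lt_mul_of_pos_left (mem_ball_zero_iff.1 ha) hl

theorem Ch.bl_sub (h : Ch g U φ r l) (hH : Hs U) (hl : 0 < l) :
    bl g U (φ 0) (r / l) ⊆ φ '' ball 0 r := fun z hz => by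
  obtain ⟨s, h0, h1, h2⟩ := exists_lt_of_mem_bl hz
  rw [lt_div_iff₀' hl] at h1
  have k : bl eu (ball (0 : E3) r) 0 (l * s) ⊆ closedBall 0 (l * s) := fun q hq => by
    have := (norm_le_ed (c := 1) (S := ball (0 : E3) r) (G := eu)
      (fun a _ v => by rw [eu_self, one_mul]) 0 q).trans_lt hq
    rw [ENNReal.ofReal_lt_ofReal_iff (by positivity)] at this
    simpa using this.le
  obtain ⟨q, h3, h4, -⟩ := bl_pull (g := eu) h.ld h.inj h.maps hH hl
    (fun a ha v => (eu_self a v).trans_le (h.lo a ha v)) (isCompact_closedBall 0 (l * s))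
    (closedBall_subset_ball h1) (mem_ball_self ((mul_pos hl h0).trans h1)) k z h2
  exact ⟨q, h3, h4⟩

theorem exists_ch (hg : Met g U) (hx : x ∈ U) :
    ∃ φ r l, 0 < r ∧ 1 ≤ l ∧ φ 0 = x ∧ Ch g U φ r l := by
  have h1 : LD E3 (fun a : E3 => pt E3 x + a) univ :=
    ld_model isOpen_univ (by fun_prop) fun a _ => by
      rw [fderiv_const_add, fderiv_fun_id]; exact Function.injective_id
  have h2 := (ld_symm (E := E3) x).comp (h1.mono ((chartAt E3 x).open_target.preimage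
    (continuous_const_add (pt E3 x))) (subset_univ _)) fun _ h => h
  have h3 : ((chartAt E3 x).symm ∘ fun a : E3 => pt E3 x + a) 0 = x := by simp [symm_pt]
  have h0 : (0 : E3) ∈ (fun a : E3 => pt E3 x + a) ⁻¹' (chartAt E3 x).target := by
    simpa using pt_mem x
  obtain ⟨δ, hδ, -, k1, k2, k3, k4⟩ := hg.exists_ball h2 h0 (by rwa [h3]) one_pos univ_mem
  obtain ⟨c, hc, k5⟩ := exists_coer (hg.comap_pos h2 h0 (by rwa [h3]))
  set B := comap ((chartAt E3 x).symm ∘ fun a : E3 => pt E3 x + a) g 0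
  have p1 := norm_nonneg B
  have p2 := inv_pos.2 hc
  refine ⟨_, δ, 2 * (‖B‖ + c⁻¹ + 1), hδ, by linarith, h3, k1, k2, k3, fun a ha v => ?_,
    fun a ha v => ((k4 a ha v).1.trans (mul_le_mul_of_nonneg_left (form_le_norm B v)
      (by positivity))).trans ?_⟩
  · have := (le_inv_mul_iff₀ hc).2 ((k5 v).trans (k4 a ha v).2)
    rw [← mul_assoc] at this
    exact this.trans (mul_le_mul_of_nonneg_right (by nlinarith) (hg.nonneg (k3 ha) _))
  · rw [← mul_assoc]
    exact mul_le_mul_of_nonneg_right (by nlinarith) (sq_nonneg _)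

variable [MeasurableSpace M] [BorelSpace M]

theorem lint_chart (hg : Met g U) {V S : Set E3} (h : LD E3 φ V) (hi : InjOn φ V)
    (hm : MapsTo φ V U) (hS : MeasurableSet S) (hV : S ⊆ V) (f : M → ℝ) :
    ∫⁻ y in φ '' S, ENNReal.ofReal (f y) ∂vol g =
      ∫⁻ a in S, ENNReal.ofReal (f (φ a) * dens (comap φ g) a) ∂mu0 := by
  rw [lintegral_image g h hi (HereditarilyLindelofSpace.isLindelof S) hV hS subset_rfl, vol_model,
    setLIntegral_withDensity_eq_setLIntegral_mul_non_measurable₀ _ _ _ hS (by simp)]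
  · exact lintegral_congr fun a => by
      rw [ENNReal.ofReal_mul' (dens_nonneg _ _), mul_comm]; rfl
  · exact (ENNReal.continuous_ofReal.comp_continuousOn (continuous_den.comp_continuousOn
      ((hg.isMetricOn_comap h hm).smooth.continuousOn.mono hV))).aemeasurable hS

theorem Ch.vol_eq (h : Ch g U φ r l) (hg : Met g U) : vol g (φ '' ball 0 r) =
    ∫⁻ a in ball 0 r, ENNReal.ofReal (dens (comap φ g) a) ∂mu0 := by
  simpa using lint_chart hg h.ld h.inj h.maps measurableSet_ball subset_rfl fun _ => 1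

theorem Ch.vol_le (h : Ch g U φ r l) (hg : Met g U) (hl : 0 < l) (hr : 0 < r) :
    vol g (φ '' ball 0 r) ≤ ENNReal.ofReal (l ^ 3 * d0 * r ^ 3) * mu0 (ball 0 1) := by
  have := d0_pos
  rw [h.vol_eq hg, ENNReal.ofReal_mul (by positivity), mul_assoc]
  refine (setLIntegral_mono' measurableSet_ball fun a ha =>
    ENNReal.ofReal_le_ofReal ((h.cmp hg ha).dens_le hl)).trans_eq ?_
  rw [setLIntegral_const, Measure.addHaar_ball_of_pos _ _ hr, finrank_euclideanSpace_fin]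

theorem Ch.le_vol (h : Ch g U φ r l) (hg : Met g U) (hl : 0 < l) (hr : 0 < r) :
    ENNReal.ofReal (d0 / l ^ 3 * r ^ 3) * mu0 (ball 0 1) ≤ vol g (φ '' ball 0 r) := by
  have := d0_pos
  rw [h.vol_eq hg, ENNReal.ofReal_mul (by positivity), mul_assoc]
  refine le_trans (le_of_eq ?_) (setLIntegral_mono' measurableSet_ball fun a ha =>
    ENNReal.ofReal_le_ofReal ((div_le_iff₀' (by positivity)).2 ((h.cmp hg ha).le_dens hl)))
  rw [setLIntegral_const, Measure.addHaar_ball_of_pos _ _ hr, finrank_euclideanSpace_fin]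

omit [TopologicalSpace M] [ChartedSpace E3 M] [IsManifold 𝓘(ℝ, E3) ∞ M] [BorelSpace M] in
theorem real_of_lint {μ ν : Measure M} {P e : M → ℝ} {A : ℝ≥0} (hP : Integrable P μ)
    (he : Integrable e ν) (h1 : 0 ≤ᵐ[μ] P) (h2 : 0 ≤ᵐ[ν] e)
    (h : ∫⁻ y, ENNReal.ofReal (P y) ∂μ ≤ (A * ∫⁻ y, ENNReal.ofReal (e y) ∂ν) ^ 3) :
    ∫ y, P y ∂μ ≤ (A * ∫ y, e y ∂ν) ^ 3 := by
  have := integral_nonneg_of_ae h2
  rwa [← ofReal_integral_eq_lintegral_ofReal hP h1, ← ofReal_integral_eq_lintegral_ofReal he h2,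
    ← ENNReal.ofReal_coe_nnreal, ← ENNReal.ofReal_mul A.coe_nonneg,
    ← ENNReal.ofReal_pow (by positivity), ENNReal.ofReal_le_ofReal_iff (by positivity)] at h

/-- the local Sobolev inequality, for lower integrals -/
theorem sob_loc' {l : ℝ} (hl : 0 < l) : ∃ A : ℝ≥0, ∀ (M : Type) [TopologicalSpace M]
    [ChartedSpace E3 M] [IsManifold 𝓘(ℝ, E3) ∞ M] [MeasurableSpace M] [BorelSpace M]
    (g : Ten E3 M) (U : Set M) (φ : E3 → M) (r : ℝ) (p : M → ℝ), Met g U → 0 < r →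
    Ch g U φ r l → Sm0 E3 p U → ∫⁻ y in φ '' ball 0 (r / 2), ENNReal.ofReal (p y ^ 6) ∂vol g ≤
      (A * ∫⁻ y in φ '' ball 0 r,
        ENNReal.ofReal (4 * gam g p p y + r⁻¹ ^ 2 * p y ^ 2) ∂vol g) ^ 3 := by
  obtain ⟨A, hA⟩ := sob_chart hl
  refine ⟨A, fun M _ _ _ _ _ g U φ r p hg hr h hp => ?_⟩
  have h1 := fun a ha => (sm0_iff hg.isOpen).1 hp _ (h.maps (x := a) ha)
  rw [lint_chart hg h.ld h.inj h.maps measurableSet_ball (ball_subset_ball (half_le_self hr.le)),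
    lint_chart hg h.ld h.inj h.maps measurableSet_ball subset_rfl]
  refine (hA (comap φ g) r (p ∘ φ) hr (fun a ha => h.cmp hg ha) fun a ha =>
    (((h1 a ha).comp_ld (h.ld.sm ha)).of_le (by simp)).contDiffWithinAt).trans_eq ?_
  congr 2
  exact setLIntegral_congr_fun measurableSet_ball fun a ha => by
    simp only [gam_comp hg h.ld ha (h.maps ha) (h1 a ha) (h1 a ha), Function.comp]

end Vale.Agent.P216LS
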