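import Vale.Agent.P216LS.Cutd
import Vale.Agent.P216R.Exi

/-!
# P216LS: the entropy cut in the form consumed by `P216R.exi`
-/

namespace Vale.Agent.P216LS

theorem cutd_R (c₀ : ℝ) (hc : 0 < c₀) : ∃ ε₀ > 0, ∃ A > 0, P216R.CUTD c₀ A ε₀ := by
  obtain ⟨ε, e0, A, A0, c₁, c1, H⟩ := cutd (s := 20) (by norm_num) hc
  exact ⟨ε, e0, A, A0, c₁, c1, fun M _ _ _ _ _ g U U' K φ ψ h δ lo hi η y hg hg' hU hU' hH hH' q hδ
    hy hT l0 h1 h2 h3 h4 => H M g U U' K φ ψ y h δ lo hi η hg hU hH hg' hU' hH' q.neck hδ q.side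
      q.cut q.met hy hT l0 h1 h2 h3 h4⟩

end Vale.Agent.P216LS
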