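import Vale.Agent.P216LS.Lin
import Mathlib.Analysis.FunctionalSpaces.SobolevInequality
import Mathlib.Analysis.Calculus.BumpFunction.FiniteDimension

/-! # P216LS: the Sobolev inequality in a chart -/

open scoped ContDiff Topology ENNReal NNReal
open Set MeasureTheory Metric Filter

set_option maxSynthPendingDepth 3

noncomputable section

namespace Vale.Agent.P216LS

open P216R P219.RG
open P210.R2.H53 (gradG gamG dens)

/-- the reference Haar measure -/
abbrev mu0 : Measure E3 := (Module.finBasis ℝ E3).addHaar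

/-- the Euclidean metric -/
def eu (_ : E3) : Bil E3 := innerSL ℝ

theorem eu_apply (z v w : E3) : eu z v w = inner ℝ v w := rfl

theorem eu_symm (z v w : E3) : eu z v w = eu z w v := real_inner_comm w v

theorem eu_self (z v : E3) : eu z v v = ‖v‖ ^ 2 := real_inner_self_eq_norm_sq v

/-- the density of the Euclidean metric -/
def d0 : ℝ := dens eu 0

theorem d0_pos : 0 < d0 := dens_pos (eu_symm 0) fun v hv => by
  rw [eu_self]; positivity

/-- `A` is a symmetric form, comparable with the Euclidean one -/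
structure Cmp (A : Bil E3) (l : ℝ) : Prop where
  symm : ∀ v w, A v w = A w v
  lo : ∀ v, ‖v‖ ^ 2 ≤ l ^ 2 * A v v
  hi : ∀ v, A v v ≤ l ^ 2 * ‖v‖ ^ 2

theorem pos_of_mul_pos_of_nonneg_left' {l b : ℝ} (h : 0 < l ^ 2 * b) : 0 < b := by
  by_contra hb
  nlinarith [sq_nonneg l]

theorem Cmp.pos {A : Bil E3} {l : ℝ} (h : Cmp A l) (v : E3) (hv : v ≠ 0) : 0 < A v v :=
  pos_of_mul_pos_of_nonneg_left' ((pow_pos (norm_pos_iff.2 hv) 2).trans_le (h.lo v))

theorem Cmp.dens_le {G : E3 → Bil E3} {z : E3} {l : ℝ} (h : Cmp (G z) l) (hl : 0 < l) :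
    dens G z ≤ l ^ 3 * d0 := by
  simpa [d0] using dens_le_mul hl h.symm (nonneg_of h.pos) (H := eu) (z' := 0)
    (eu_symm 0) (fun v hv => by rw [eu_self]; positivity)
    fun v => by rw [eu_self]; exact h.hi v

theorem Cmp.le_dens {G : E3 → Bil E3} {z : E3} {l : ℝ} (h : Cmp (G z) l) (hl : 0 < l) :
    d0 ≤ l ^ 3 * dens G z := by
  simpa [d0] using dens_le_mul hl (G := eu) (z := 0) (eu_symm 0)
    (fun v => by rw [eu_self]; positivity) h.symm h.pos fun v => by rw [eu_self]; exact h.lo v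

theorem sob_euc : ∃ A : ℝ≥0, ∀ q : E3 → ℝ, ContDiff ℝ 1 q → HasCompactSupport q →
    ∫⁻ a, ENNReal.ofReal (q a ^ 6) ∂mu0 ≤
      (A * ∫⁻ a, ENNReal.ofReal (‖fderiv ℝ q a‖ ^ 2) ∂mu0) ^ 3 := by
  refine ⟨eLpNormLESNormFDerivOfEqInnerConst mu0 (2 : ℝ≥0) ^ 2, fun q h1 h2 => ?_⟩
  have h := eLpNorm_le_eLpNorm_fderiv_of_eq_inner mu0 h1 h2 (p := 2) (p' := 6) one_le_two
    (by simp) (by simp; norm_num)
  have e1 := eLpNorm_nnreal_pow_eq_lintegral (f := q) (μ := mu0) (p := 6) (by norm_num)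
  have e2 := eLpNorm_nnreal_pow_eq_lintegral (f := fderiv ℝ q) (μ := mu0) (p := 2) (by norm_num)
  have c6 : ((6 : ℝ≥0) : ℝ) = (6 : ℕ) := by norm_num
  have c2 : ((2 : ℝ≥0) : ℝ) = (2 : ℕ) := by norm_num
  simp only [c6, ENNReal.rpow_natCast] at e1
  simp only [c2, ENNReal.rpow_natCast] at e2
  have f1 (a : E3) : ENNReal.ofReal (q a ^ 6) = ‖q a‖ₑ ^ 6 := by
    rw [← ofReal_norm, ← ENNReal.ofReal_pow (norm_nonneg _), Real.norm_eq_abs,
      Even.pow_abs (by decide)]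
  have f2 (a : E3) : ENNReal.ofReal (‖fderiv ℝ q a‖ ^ 2) = ‖fderiv ℝ q a‖ₑ ^ 2 := by
    rw [← ofReal_norm, ← ENNReal.ofReal_pow (norm_nonneg _)]
  simp only [f1, f2, ← e1, ← e2]
  refine (pow_le_pow_left' h 6).trans_eq ?_
  push_cast
  ring

theorem exists_bump : ∃ C : ℝ, ∀ r > 0, ∃ η : E3 → ℝ, ContDiff ℝ ∞ η ∧ (∀ a, 0 ≤ η a ∧ η a ≤ 1) ∧
    (∀ a ∈ ball (0 : E3) (r / 2), η a = 1) ∧ (∀ a ∉ ball (0 : E3) (3 / 4 * r), η a = 0) ∧
    ∀ a, ‖fderiv ℝ η a‖ ≤ C * r⁻¹ := by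
  let b : ContDiffBump (0 : E3) := ⟨1 / 2, 3 / 4, by norm_num, by norm_num⟩
  have hb : ContDiff ℝ ∞ b := b.contDiff
  obtain ⟨C, hC⟩ := (b.hasCompactSupport.fderiv (𝕜 := ℝ)).exists_bound_of_continuous
    (hb.continuous_fderiv (by simp))
  refine ⟨C, fun r hr => ⟨fun a => b (r⁻¹ • a), hb.comp (contDiff_const_smul _),
    fun a => ⟨b.nonneg, b.le_one⟩, fun a ha => b.one_of_mem_closedBall ?_,
    fun a ha => b.zero_of_le_dist ?_, fun a => ?_⟩⟩
  · rw [mem_ball_zero_iff] at ha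
    rw [mem_closedBall_zero_iff, norm_smul, norm_inv, Real.norm_of_nonneg hr.le,
      inv_mul_le_iff₀ hr]
    change _ ≤ r * (1 / 2)
    linarith
  · rw [mem_ball_zero_iff, not_lt] at ha
    rw [dist_zero_right, norm_smul, norm_inv, Real.norm_of_nonneg hr.le, le_inv_mul_iff₀ hr]
    change r * (3 / 4) ≤ _
    linarith
  · have h := ((hb.differentiable (by simp)) (r⁻¹ • a)).hasFDerivAt.comp a
      ((hasFDerivAt_id a).const_smul r⁻¹)
    rw [show fderiv ℝ (fun a => b (r⁻¹ • a)) a = _ from h.fderiv]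
    refine (ContinuousLinearMap.opNorm_comp_le _ _).trans (mul_le_mul (hC _) ?_ (norm_nonneg _)
      ((norm_nonneg _).trans (hC 0)))
    rw [norm_smul, norm_inv, Real.norm_of_nonneg hr.le]
    exact mul_le_of_le_one_right (by positivity) ContinuousLinearMap.norm_id_le

/-- the Sobolev inequality in a chart -/
theorem sob_chart {l : ℝ} (hl : 0 < l) : ∃ A : ℝ≥0, ∀ (G : E3 → Bil E3) (r : ℝ) (p : E3 → ℝ),
    0 < r → (∀ a ∈ ball (0 : E3) r, Cmp (G a) l) → ContDiffOn ℝ 1 p (ball 0 r) →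
    ∫⁻ a in ball 0 (r / 2), ENNReal.ofReal (p a ^ 6 * dens G a) ∂mu0 ≤
      (A * ∫⁻ a in ball 0 r,
        ENNReal.ofReal ((4 * gamG G p p a + r⁻¹ ^ 2 * p a ^ 2) * dens G a) ∂mu0) ^ 3 := by
  obtain ⟨A, hA⟩ := sob_euc
  obtain ⟨C, hC⟩ := exists_bump
  have hd := d0_pos
  set K : ℝ≥0 := ⟨(l ^ 2 + 2 * C ^ 2) * (l ^ 3 / d0), by positivity⟩ with hK
  set D : ℝ≥0 := ⟨l ^ 3 * d0, by positivity⟩ with hD
  refine ⟨(D + 1) * (A * K), fun G r p hr hG hp => ?_⟩
  obtain ⟨η, h1, h2, h3, h4, h5⟩ := hC r hr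
  have hz : ∀ a ∉ ball (0 : E3) r, (fun a => η a * p a) =ᶠ[𝓝 a] fun _ => 0 := fun a ha => by
    filter_upwards [isClosed_closedBall.isOpen_compl.mem_nhds (s := (closedBall 0 (3 / 4 * r))ᶜ)
      fun h => ha (closedBall_subset_ball (by linarith) h)] with b hb
    rw [h4 b fun h => hb (ball_subset_closedBall h), zero_mul]
  have q1 : ContDiff ℝ 1 fun a => η a * p a := contDiff_iff_contDiffAt.2 fun a => by
    by_cases ha : a ∈ ball (0 : E3) r
    · exact (h1.of_le (by simp)).contDiffAt.mul (hp.contDiffAt (isOpen_ball.mem_nhds ha))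
    · exact contDiffAt_const.congr_of_eventuallyEq (hz a ha)
  have q2 : HasCompactSupport fun a => η a * p a :=
    .intro (isCompact_closedBall 0 (3 / 4 * r)) fun a ha => by
      rw [h4 a fun h => ha (ball_subset_closedBall h), zero_mul]
  have e1 : ∫⁻ a in ball 0 (r / 2), ENNReal.ofReal (p a ^ 6 * dens G a) ∂mu0 ≤
      D * ∫⁻ a, ENNReal.ofReal ((η a * p a) ^ 6) ∂mu0 := by
    rw [← lintegral_const_mul' _ _ ENNReal.coe_ne_top]
    refine (setLIntegral_mono' measurableSet_ball fun a ha => ?_).trans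
      (setLIntegral_le_lintegral _ _)
    rw [← ENNReal.ofReal_coe_nnreal, ← ENNReal.ofReal_mul D.coe_nonneg, h3 a ha, one_mul, mul_comm]
    exact ENNReal.ofReal_le_ofReal (mul_le_mul_of_nonneg_right
      ((hG a (ball_subset_ball (by linarith) ha)).dens_le hl) (by positivity))
  have e2 : ∫⁻ a, ENNReal.ofReal (‖fderiv ℝ (fun a => η a * p a) a‖ ^ 2) ∂mu0 ≤
      K * ∫⁻ a in ball 0 r,
        ENNReal.ofReal ((4 * gamG G p p a + r⁻¹ ^ 2 * p a ^ 2) * dens G a) ∂mu0 := by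
    rw [← lintegral_const_mul' _ _ ENNReal.coe_ne_top, ← lintegral_indicator measurableSet_ball]
    refine lintegral_mono fun a => ?_
    by_cases ha : a ∈ ball (0 : E3) r
    swap
    · simp [(hz a ha).fderiv_eq]
    rw [indicator_of_mem ha, ← ENNReal.ofReal_coe_nnreal, ← ENNReal.ofReal_mul K.coe_nonneg]
    refine ENNReal.ofReal_le_ofReal ?_
    have g1 := norm_sq_le_dual (hG a ha).symm (hG a ha).pos (fderiv ℝ p a) hl.le (hG a ha).hi
    have g2 := dual_nonneg (hG a ha).pos (fderiv ℝ p a)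
    change _ ≤ l ^ 2 * gamG G p p a at g1
    change 0 ≤ gamG G p p a at g2
    have g3 : ‖fderiv ℝ (fun a => η a * p a) a‖ ≤ ‖fderiv ℝ p a‖ + |p a| * (C * r⁻¹) := by
      rw [fderiv_fun_mul (h1.differentiable (by simp) a)
        ((hp.contDiffAt (isOpen_ball.mem_nhds ha)).differentiableAt one_ne_zero)]
      refine (norm_add_le _ _).trans (add_le_add ?_ ?_)
      · rw [norm_smul, Real.norm_of_nonneg (h2 a).1]
        exact mul_le_of_le_one_left (norm_nonneg _) (h2 a).2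
      · rw [norm_smul]
        exact mul_le_mul_of_nonneg_left (h5 a) (norm_nonneg _)
    have g4 : ‖fderiv ℝ (fun a => η a * p a) a‖ ^ 2 ≤
        (l ^ 2 + 2 * C ^ 2) * (4 * gamG G p p a + r⁻¹ ^ 2 * p a ^ 2) := by
      refine (pow_le_pow_left₀ (norm_nonneg _) g3 2).trans ?_
      have g5 : (|p a| * (C * r⁻¹)) ^ 2 = C ^ 2 * (r⁻¹ ^ 2 * p a ^ 2) := by
        rw [mul_pow, sq_abs]; ring
      nlinarith [sq_nonneg (‖fderiv ℝ p a‖ - |p a| * (C * r⁻¹)), mul_nonneg (sq_nonneg l) g2,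
        mul_nonneg (sq_nonneg C) g2, mul_nonneg (sq_nonneg l) (mul_nonneg (sq_nonneg r⁻¹)
          (sq_nonneg (p a)))]
    have g6 : 1 ≤ l ^ 3 / d0 * dens G a := by
      rw [div_mul_eq_mul_div, one_le_div hd]; exact (hG a ha).le_dens hl
    refine g4.trans ((le_mul_of_one_le_right (by positivity) g6).trans_eq ?_)
    change _ = (l ^ 2 + 2 * C ^ 2) * (l ^ 3 / d0) * _
    ring
  refine e1.trans ((mul_le_mul' (le_self_add.trans (le_self_pow₀ le_add_self three_ne_zero) :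
    (D : ℝ≥0∞) ≤ (D + 1) ^ 3) ((hA _ q1 q2).trans (pow_le_pow_left'
      (mul_le_mul_right e2 _) 3))).trans_eq ?_)
  push_cast
  ring

end Vale.Agent.P216LS
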