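import Vale.Agent.P216R.Loc
import Vale.Agent.P210.R2.H934.Flat
import Mathlib.Analysis.Matrix.Order

/-! # P216LS: comparison of densities and of gradient norms -/

open scoped ContDiff Topology
open Set Matrix

set_option maxSynthPendingDepth 3
set_option linter.unusedSectionVars false

noncomputable section

namespace Vale.Agent.P216LS

open P216R P219.RG
open P210.R2.H53 (gradG gamG dens)
open P210.R2.H934 (gram)

theorem det_le_one {n : Type} [Fintype n] [DecidableEq n] {T : Matrix n n ℝ} (hT : T.PosSemidef)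
    (h : (1 - T).PosSemidef) : T.det ≤ 1 := by
  rw [hT.1.det_eq_prod_eigenvalues]
  refine Finset.prod_le_one (fun i _ => hT.eigenvalues_nonneg i) fun i _ => ?_
  have h1 := h.dotProduct_mulVec_nonneg (hT.1.eigenvectorBasis i).ofLp
  have h2 : star (hT.1.eigenvectorBasis i).ofLp ⬝ᵥ (hT.1.eigenvectorBasis i).ofLp = 1 := by
    have := hT.1.eigenvectorBasis.orthonormal.1 i
    have h3 := EuclideanSpace.inner_eq_star_dotProduct (hT.1.eigenvectorBasis i)
      (hT.1.eigenvectorBasis i)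
    rw [real_inner_self_eq_norm_sq, this] at h3
    rw [dotProduct_comm, ← h3]; norm_num
  rw [sub_mulVec, one_mulVec, hT.1.mulVec_eigenvectorBasis, dotProduct_sub, dotProduct_smul, h2,
    smul_eq_mul, mul_one] at h1
  simpa using h1

open scoped MatrixOrder in
theorem det_mono {n : Type} [Fintype n] [DecidableEq n] {A B : Matrix n n ℝ} (hA : A.PosSemidef)
    (hB : B.PosDef) (h : (B - A).PosSemidef) : A.det ≤ B.det := by
  obtain ⟨C, rfl⟩ := CStarAlgebra.nonneg_iff_eq_star_mul_self.1 hB.posSemidef.nonneg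
  have hd := hB.det_pos
  rw [star_eq_conjTranspose, det_mul, det_conjTranspose, star_trivial] at hd ⊢
  have hC : IsUnit C.det := Ne.isUnit fun e => by simp [e] at hd
  have h1 := det_le_one (hA.conjTranspose_mul_mul_same C⁻¹) (by
    have := h.conjTranspose_mul_mul_same C⁻¹
    rwa [Matrix.mul_sub, Matrix.sub_mul, star_eq_conjTranspose, ← Matrix.mul_assoc,
      ← conjTranspose_mul, mul_nonsing_inv _ hC, conjTranspose_one, Matrix.one_mul,
      mul_nonsing_inv _ hC] at this)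
  rw [det_mul, det_mul, det_conjTranspose, star_trivial, det_nonsing_inv,
    Ring.inverse_eq_inv'] at h1
  have h2 : C.det ≠ 0 := hC.ne_zero
  have h3 : A.det = (C.det⁻¹ * A.det * C.det⁻¹) * (C.det * C.det) := by field_simp
  rw [h3]
  nlinarith

variable {E : Type} [NormedAddCommGroup E] [NormedSpace ℝ E] [FiniteDimensional ℝ E]
  {G H : E → Bil E} {z z' : E}

theorem gram_form (G : E → Bil E) (z : E) (x : Fin (Module.finrank ℝ E) → ℝ) :
    star x ⬝ᵥ ((gram G z).mulVec x) =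
      G z (∑ i, x i • Module.finBasis ℝ E i) (∑ i, x i • Module.finBasis ℝ E i) := by
  simp only [dotProduct, Matrix.mulVec, gram, Matrix.of_apply, map_sum, map_smul,
    _root_.sum_apply, _root_.smul_apply, smul_eq_mul, Pi.star_apply,
    star_trivial, Finset.mul_sum]
  rw [Finset.sum_comm]
  refine Finset.sum_congr rfl fun i _ => Finset.sum_congr rfl fun j _ => ?_
  ring

theorem gram_herm (hs : ∀ v w, G z v w = G z w v) : (gram G z).IsHermitian := by
  ext i j
  simp [gram, hs (Module.finBasis ℝ E i)]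

theorem gram_pos (hs : ∀ v w, G z v w = G z w v) (hp : ∀ v, v ≠ 0 → 0 < G z v v) :
    (gram G z).PosDef := by
  refine PosDef.of_dotProduct_mulVec_pos (gram_herm hs) fun x hx => ?_
  rw [gram_form]
  refine hp _ fun h0 => hx (funext fun i => ?_)
  exact Fintype.linearIndependent_iff.1 (Module.finBasis ℝ E).linearIndependent x h0 i

theorem dens_pos (hs : ∀ v w, G z v w = G z w v) (hp : ∀ v, v ≠ 0 → 0 < G z v v) :
    0 < dens G z := Real.sqrt_pos.2 (gram_pos hs hp).det_pos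

theorem dens_nonneg (G : E → Bil E) (z : E) : 0 ≤ dens G z := Real.sqrt_nonneg _

/-- the density is monotone in the metric -/
theorem dens_mono (hs : ∀ v w, G z v w = G z w v) (hn : ∀ v, 0 ≤ G z v v)
    (hs' : ∀ v w, H z' v w = H z' w v) (hp : ∀ v, v ≠ 0 → 0 < H z' v v)
    (h : ∀ v, G z v v ≤ H z' v v) : dens G z ≤ dens H z' := by
  refine Real.sqrt_le_sqrt (det_mono (A := gram G z) (B := gram H z')
    (.of_dotProduct_mulVec_nonneg (gram_herm hs) fun x => by rw [gram_form]; exact hn _)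
    (gram_pos hs' hp) (.of_dotProduct_mulVec_nonneg ((gram_herm hs').sub (gram_herm hs)) fun x => ?_))
  rw [sub_mulVec, dotProduct_sub, gram_form, gram_form]
  exact sub_nonneg.2 (h _)

theorem dens_smul {c : ℝ} (hc : 0 ≤ c) (G : E → Bil E) (z : E) :
    dens (c ^ 2 • G) z = c ^ Module.finrank ℝ E * dens G z := by
  have : gram (c ^ 2 • G) z = c ^ 2 • gram G z := by ext i j; simp [gram]
  rw [P210.R2.H934.dens_eq, P210.R2.H934.dens_eq, this, det_smul, Fintype.card_fin, ← pow_mul,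
    mul_comm 2, pow_mul, Real.sqrt_mul (sq_nonneg _), Real.sqrt_sq (by positivity)]

theorem dens_le_mul {c : ℝ} (hc : 0 < c) (hs : ∀ v w, G z v w = G z w v) (hn : ∀ v, 0 ≤ G z v v)
    (hs' : ∀ v w, H z' v w = H z' w v) (hp : ∀ v, v ≠ 0 → 0 < H z' v v)
    (h : ∀ v, G z v v ≤ c ^ 2 * H z' v v) : dens G z ≤ c ^ Module.finrank ℝ E * dens H z' := by
  rw [← dens_smul hc.le]
  exact dens_mono hs hn (fun v w => by simp [hs' v w])
    (fun v hv => by simpa using mul_pos (pow_pos hc 2) (hp v hv)) (by simpa using h)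

/-! ### the dual norm -/

variable {A : Bil E}

theorem inv_spec (hp : ∀ v, v ≠ 0 → 0 < A v v) (l : E →L[ℝ] ℝ) (v : E) :
    A (A.inverse l) v = l v := by
  obtain ⟨T, rfl⟩ := isInv hp
  simp

theorem nonneg_of (hp : ∀ v, v ≠ 0 → 0 < A v v) (v : E) : 0 ≤ A v v := by
  by_cases h : v = 0
  · simp [h]
  · exact (hp v h).le

theorem dual_nonneg (hp : ∀ v, v ≠ 0 → 0 < A v v) (l : E →L[ℝ] ℝ) : 0 ≤ l (A.inverse l) :=
  inv_spec hp l _ ▸ nonneg_of hp _

theorem abs_le_dual (hs : ∀ v w, A v w = A w v) (hp : ∀ v, v ≠ 0 → 0 < A v v) (l : E →L[ℝ] ℝ)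
    (v : E) : |l v| ≤ √(l (A.inverse l)) * √(A v v) := by
  have h1 := cs_form A hs (nonneg_of hp) (A.inverse l) v
  have h2 := cs_form A hs (nonneg_of hp) (A.inverse l) (-v)
  simp only [map_neg, _root_.neg_apply, neg_neg, inv_spec hp] at h1 h2
  exact abs_le.2 ⟨by linarith, h1⟩

theorem dual_le_iff (hs : ∀ v w, A v w = A w v) (hp : ∀ v, v ≠ 0 → 0 < A v v) (l : E →L[ℝ] ℝ)
    {C : ℝ} (hC : 0 ≤ C) : l (A.inverse l) ≤ C ^ 2 ↔ ∀ v, |l v| ≤ C * √(A v v) := by
  refine ⟨fun h v => (abs_le_dual hs hp l v).trans (mul_le_mul_of_nonneg_right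
    (Real.sqrt_le_iff.2 ⟨hC, h⟩) (Real.sqrt_nonneg _)), fun h => ?_⟩
  have h1 := h (A.inverse l)
  have h2 := dual_nonneg hp l
  rw [inv_spec hp, abs_of_nonneg h2] at h1
  nlinarith [Real.sq_sqrt h2, sq_nonneg (C - √(l (A.inverse l)))]

/-- the Euclidean norm of a differential is bounded by the norm of the gradient -/
theorem norm_sq_le_dual (hs : ∀ v w, A v w = A w v) (hp : ∀ v, v ≠ 0 → 0 < A v v) (l : E →L[ℝ] ℝ)
    {c : ℝ} (hc : 0 ≤ c) (h : ∀ v, A v v ≤ c ^ 2 * ‖v‖ ^ 2) :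
    ‖l‖ ^ 2 ≤ c ^ 2 * l (A.inverse l) := by
  have h1 : ‖l‖ ≤ √(l (A.inverse l)) * c := l.opNorm_le_bound (by positivity) fun v => by
    rw [mul_assoc]
    refine (abs_le_dual hs hp l v).trans (mul_le_mul_of_nonneg_left ?_ (Real.sqrt_nonneg _))
    exact Real.sqrt_le_iff.2 ⟨by positivity, by rw [mul_pow]; exact h v⟩
  calc ‖l‖ ^ 2 ≤ (√(l (A.inverse l)) * c) ^ 2 := by gcongr
    _ = _ := by rw [mul_pow, Real.sq_sqrt (dual_nonneg hp l), mul_comm]

end Vale.Agent.P216LS
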