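import Vale.Agent.P216LS.TubG
import Vale.Agent.P216LS.Sob
import Vale.Agent.P216SG.Soft
import Vale.Agent.P216S.Col

/-! # P216LS: the cut function of a surgery -/

open scoped Manifold ContDiff Topology ENNReal
open Set MeasureTheory Metric Real Filter

noncomputable section

namespace Vale.Agent.P216LS

open P216R P216SG P216S
open P216ST (Sm0)
open P216E (tri)

/-- the identity cut off near `0` -/
def th (u : ℝ) : ℝ := u * smoothTransition (8 * u - 1)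

theorem th_zero {u : ℝ} (h : u ≤ 1 / 8) : th u = 0 := by
  rw [th, smoothTransition.zero_of_nonpos (by linarith), mul_zero]

theorem th_eq {u : ℝ} (h : 1 / 4 ≤ u) : th u = u := by
  rw [th, smoothTransition.one_of_one_le (by linarith), mul_one]

theorem th_half {u : ℝ} (h : 1 / 2 ≤ th u) : 1 / 2 ≤ u := by
  rcases le_total u 0 with k | k
  · rw [th_zero (by linarith)] at h; linarith
  · exact h.trans (mul_le_of_le_one_right k (smoothTransition.le_one _))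

theorem th_cd : ContDiff ℝ ∞ th :=
  contDiff_id.mul (smoothTransition.contDiff.comp (by fun_prop))

/-- the logarithmic profile -/
def lg (a m r : ℝ) : ℝ := a * (log r - m)

theorem lg_cd (a m : ℝ) {r : ℝ} (h : 0 < r) : ContDiffAt ℝ ∞ (lg a m) r :=
  contDiffAt_const.mul ((contDiffAt_log.2 h.ne').sub contDiffAt_const)

theorem deriv_lg (a m : ℝ) : deriv (lg a m) = fun r => a * r⁻¹ := funext fun r => by
  unfold lg
  rw [deriv_const_mul_field, deriv_sub_const, deriv_log]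

theorem deriv2_lg (a m r : ℝ) : deriv (deriv (lg a m)) r = a * -(r ^ 2)⁻¹ := by
  rw [deriv_lg, deriv_const_mul_field, deriv_inv]

theorem exists_K {X : ℝ} (hX : 3 ≤ X) : ∃ K : ℕ, 2 ≤ K ∧ K < 4 * log X ∧ X ^ 3 ≤ 5 ^ K := by
  have h0 : 0 < X := by linarith
  have h1 : 1 ≤ log X := (le_log_iff_exp_le h0).2 (by linarith [exp_one_lt_d9])
  have h2 := Nat.le_ceil (3 * log X)
  refine ⟨⌈3 * log X⌉₊, by exact_mod_cast (show (2 : ℝ) ≤ ⌈3 * log X⌉₊ by linarith),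
    by linarith [Nat.ceil_lt_add_one (show 0 ≤ 3 * log X by linarith)], ?_⟩
  calc X ^ 3 = exp (3 * log X) := by rw [← exp_log (pow_pos h0 3), log_pow]; rfl
    _ ≤ exp (⌈3 * log X⌉₊ * 1) := exp_le_exp.2 (by linarith)
    _ = exp 1 ^ ⌈3 * log X⌉₊ := exp_nat_mul _ _
    _ ≤ _ := pow_le_pow_left₀ (exp_pos 1).le (by linarith [exp_one_lt_d9]) _

variable {M : Type} [TopologicalSpace M] [ChartedSpace E3 M] [IsManifold 𝓘(ℝ, E3) ∞ M]
  {g : Ten E3 M} {U U' K T C : Set M} {φ ψ : E3 → M} {h δ ε η σ l ρ c a m Λ A : ℝ} {x : E3}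
  {p : M}

/-- the derivatives of the logarithm of the curvature in a neck -/
theorem der_lg (hg : Met g U) (hp : p ∈ U) (N : NF g p σ η) (hη : η ≤ 1 / 2)
    (ha : |a| = 4) (hc : 128 * η ≤ c) :
    gam g (fun y => lg a m (Sc g y)) (fun y => lg a m (Sc g y)) p ≤ c * Sc g p ∧
      |lap g (fun y => lg a m (Sc g y)) p| ≤ c * Sc g p := by
  have h1 := (abs_le.1 N.sc).1
  have η0 := (abs_nonneg _).trans N.sc
  have r0 : 0 < Sc g p := pos_of_mul_pos_of_nonneg_left' (l := σ) (by linarith)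
  have sr := (sm0_iff hg.isOpen).1 (P216EO.sm0_Sc hg) p hp
  have cd := lg_cd a m r0
  have d1 := cd.differentiableAt (by simp)
  have g0 := gam_nonneg hg hp (Sc g)
  have g1 := N.gam
  have g2 := N.lap
  rw [P216EO.lap_comp' g sr cd, P216EO.gam_comp' g sr d1, P216EO.gam_comm hg hp,
    P216EO.gam_comp' g sr d1, deriv2_lg, deriv_lg]
  beta_reduce
  generalize gam g (Sc g) (Sc g) p = G at *
  generalize lap g (Sc g) p = L at *
  generalize Sc g p = R at *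
  have h2 : 1 ≤ 2 * (σ ^ 2 * R) := by linarith
  have k1 : (R ^ 2)⁻¹ * G ≤ 8 * η * R := by
    rw [inv_mul_le_iff₀ (by positivity)]
    calc G ≤ (2 * (σ ^ 2 * R)) ^ 3 * G := le_mul_of_one_le_left g0 (one_le_pow₀ h2)
      _ = 8 * R ^ 3 * (σ ^ 6 * G) := by ring
      _ ≤ 8 * R ^ 3 * η := by gcongr
      _ = _ := by ring
  have k2 : R⁻¹ * |L| ≤ 4 * η * R := by
    rw [inv_mul_le_iff₀ r0]
    calc |L| ≤ (2 * (σ ^ 2 * R)) ^ 2 * |L| := le_mul_of_one_le_left (abs_nonneg _) (one_le_pow₀ h2)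
      _ = 4 * R ^ 2 * (σ ^ 4 * |L|) := by ring
      _ ≤ 4 * R ^ 2 * η := by gcongr
      _ = _ := by ring
  have k3 := mul_le_mul_of_nonneg_right hc r0.le
  have k4 := mul_nonneg η0 r0.le
  constructor
  · have : a * R⁻¹ * (a * R⁻¹ * G) = |a| ^ 2 * ((R ^ 2)⁻¹ * G) := by rw [sq_abs]; ring
    rw [this, ha]; linarith
  · refine (abs_add_le _ _).trans ?_
    simp only [abs_mul, abs_neg, abs_inv, abs_pow, ha, abs_of_pos r0, abs_of_nonneg g0, mul_assoc]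
    linarith

/-- a chart adapted to the curvature scale -/
def Gd (l : ℝ) (g : Ten E3 M) (U : Set M) (p : M) : Prop :=
  ∃ φ r, φ 0 = p ∧ 0 < r ∧ Ch g U φ r l ∧
    ∀ y ∈ φ '' ball 0 r, 1 ≤ l ^ 2 * r ^ 2 * Sc g y ∧ r ^ 2 * Sc g y ≤ l ^ 2

omit [IsManifold 𝓘(ℝ, E3) ∞ M] in
theorem Gd.pos (H : Gd l g U p) : 0 < Sc g p :=
  let ⟨_, r, h1, h2, _, h3⟩ := H
  pos_of_mul_pos_of_nonneg_left' (l := l * r)
    (mul_pow l r 2 ▸ one_pos.trans_le (h3 p ⟨0, mem_ball_self h2, h1⟩).1)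

omit [IsManifold 𝓘(ℝ, E3) ∞ M] in
theorem gd_of_emb {B : Set E3} (e : Emb ψ B U) (hB : ball x ρ ⊆ B) (r0 : 0 < ρ) (s0 : 0 < σ)
    (h1 : ∀ z ∈ ball x ρ, ∀ v, σ ^ 2 * ‖v‖ ^ 2 ≤ l ^ 2 * comap ψ g z v v ∧
      comap ψ g z v v ≤ l ^ 2 * (σ ^ 2 * ‖v‖ ^ 2))
    (h2 : ∀ z ∈ ball x ρ, 1 ≤ l ^ 2 * (σ * ρ) ^ 2 * Sc g (ψ z) ∧
      (σ * ρ) ^ 2 * Sc g (ψ z) ≤ l ^ 2) : Gd l g U (ψ x) := by
  have d : ∀ a : E3, fderiv ℝ (fun a : E3 => x + σ⁻¹ • a) a = σ⁻¹ • ContinuousLinearMap.id ℝ E3 :=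
    fun a => (((hasFDerivAt_id a).const_smul σ⁻¹).const_add x).fderiv
  have m : MapsTo (fun a : E3 => x + σ⁻¹ • a) (ball 0 (σ * ρ)) (ball x ρ) := fun a ha => by
    rw [mem_ball_iff_norm, add_sub_cancel_left, norm_smul, norm_inv, norm_of_nonneg s0.le,
      inv_mul_lt_iff₀ s0]
    exact mem_ball_zero_iff.1 ha
  have i := smul_right_injective E3 (inv_pos.2 s0).ne'
  have k : Emb (fun a : E3 => x + σ⁻¹ • a) (ball 0 (σ * ρ)) B :=
    ⟨ld_model isOpen_ball (by fun_prop) fun a _ => d a ▸ i,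
      fun a _ b _ j => i (add_left_cancel j), m.mono_right hB⟩
  have k1 := e.comp k
  have k2 : ∀ a ∈ ball (0 : E3) (σ * ρ), ∀ v, σ ^ 2 * comap (ψ ∘ fun a : E3 => x + σ⁻¹ • a) g a v v
      = comap ψ g (x + σ⁻¹ • a) v v := fun a ha v => by
    rw [e.comap_comp k g ha, comap_model, d]
    simp only [smul_apply, ContinuousLinearMap.id_apply, map_smul, smul_eq_mul]
    field_simp
  refine ⟨_, σ * ρ, by simp, by positivity, ⟨k1.ld, k1.inj, k1.mem, fun a ha v => ?_,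
    fun a ha v => ?_⟩, by rintro _ ⟨a, ha, rfl⟩; exact h2 _ (m ha)⟩
  · refine le_of_mul_le_mul_left ?_ (pow_pos s0 2)
    rw [mul_left_comm, k2 a ha]; exact (h1 _ (m ha) v).1
  · refine le_of_mul_le_mul_left ?_ (pow_pos s0 2)
    rw [mul_left_comm, k2 a ha]; exact (h1 _ (m ha) v).2

/-- the centre of a neck has a good chart inside the neck -/
theorem gd_neck (hN : NB g U ε) (hε : ε ≤ 1 / 25) (H : Neck g U φ σ ε)
    (hx : x ∈ sphere (0 : E3) 1) (hl : 3 ≤ l) (hm : MapsTo φ (lan (-1) 1) U') :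
    Gd l g U' (φ x) := by
  have s0 := H.hpos
  have t := tb12 H hε
  have n : ∀ z ∈ ball x (1 / 2), 1 / 2 < ‖z‖ ∧ ‖z‖ < 3 / 2 := fun z hz => by
    have := abs_lt.1 ((abs_norm_sub_norm_le z x).trans_lt (mem_ball_iff_norm.1 hz))
    rw [mem_sphere_zero_iff_norm.1 hx] at this
    exact ⟨by linarith [this.1], by linarith [this.2]⟩
  have b : ball x (1 / 2) ⊆ lan (-1) 1 := fun z hz =>
    ⟨by linarith [exp_neg_one_lt_d9, (n z hz).1], by linarith [exp_one_gt_d9, (n z hz).2]⟩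
  have b' : lan (-1) 1 ⊆ lan (-12) 12 := lan_mono (by norm_num) (by norm_num)
  have l2 : 9 ≤ l ^ 2 := by nlinarith
  refine gd_of_emb ((t.emb.mono isOpen_lan b').of_mem hm) b one_half_pos s0 (fun z hz v => ?_)
    fun z hz => ?_
  · have k1 := t.low z (b' (b hz)) v
    have k2 := t.up z (b' (b hz)) v
    have k3 : 0 ≤ σ ^ 2 * ‖v‖ ^ 2 := by positivity
    have k4 : 1 / 4 ≤ ‖z‖ ^ 2 := by nlinarith [(n z hz).1]
    have k5 : ‖z‖ ^ 2 ≤ 9 / 4 := by nlinarith [(n z hz).1, (n z hz).2]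
    have k6 : 0 ≤ comap φ g z v v :=
      nonneg_of_mul_nonneg_right (le_trans (by positivity) k1) (by linarith)
    exact ⟨by nlinarith, by nlinarith⟩
  · have := abs_le.1 (hN _ _ ⟨φ, H, x, hx, rfl⟩ _ (piece_bl' H hε hx ⟨z, b' (b hz), rfl⟩))
    exact ⟨by nlinarith [this.1], by nlinarith [this.2]⟩

variable [MeasurableSpace M] [BorelSpace M]

omit [BorelSpace M] in
/-- the cut function of a region -/
theorem cutF_of {k : ℕ} (hg : Met g U') (hT : IsOpen T) (ha : |a| = 4) (hη : η ≤ 1 / 2)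
    (hc : 128 * η ≤ c) (k2 : 2 ≤ k) (hΛ : 0 ≤ Λ) (hC : IsCompact C) (hCU : C ⊆ U)
    (hCU' : C ⊆ U') (h1 : ∀ p ∈ T, Gd l g U' p)
    (h2 : ∀ p ∈ U', (p ∈ T → lg a m (Sc g p) ≤ k) → p ∈ C)
    (h3 : ∀ p ∈ T, p ∈ C → ∃ σ, NF g p σ η)
    (h4 : ∀ p ∈ U', p ∉ T → (0 < Sc g p ∧ lg a m (Sc g p) ≤ 0) ∨ ∃ N ∈ 𝓝 p, Disjoint N T)
    (h5 : ∀ r > 0, 0 ≤ lg a m r → lg a m r ≤ 1 → r ≤ Λ)
    (h6 : ∀ W, (∀ p ∈ W, Gd l g U' p) → (tri g U').Sob W A 0) :
    CutF c A g U U' (T.indicator fun p => th (lg a m (Sc g p))) k Λ C := by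
  have sr := (sm0_iff hg.isOpen).1 (P216EO.sm0_Sc hg)
  have sl : ∀ p ∈ U', 0 < Sc g p → SR E3 (fun y => lg a m (Sc g y)) p := fun p hp k =>
    (lg_cd a m k).contMDiffAt.comp p (sr p hp)
  have k0 : (2 : ℝ) ≤ k := by exact_mod_cast k2
  have mT : ∀ p, 0 < T.indicator (fun p => th (lg a m (Sc g p))) p → p ∈ T := fun p k =>
    mem_of_indicator_ne_zero k.ne'
  have hf : ∀ p, 1 / 2 ≤ T.indicator (fun p => th (lg a m (Sc g p))) p → p ∈ T ∧
      1 / 2 ≤ lg a m (Sc g p) ∧ T.indicator (fun p => th (lg a m (Sc g p))) p = lg a m (Sc g p) :=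
    fun p k => by
      have j := mT p (one_half_pos.trans_le k)
      rw [indicator_of_mem j] at k ⊢
      exact ⟨j, th_half k, th_eq (by linarith [th_half k])⟩
  have mC : ∀ p ∈ U', T.indicator (fun p => th (lg a m (Sc g p))) p ≤ k → p ∈ C :=
    fun p hp j => h2 p hp fun j1 => by
      rw [indicator_of_mem j1] at j
      by_contra! j2
      rw [th_eq (by linarith)] at j
      exact j.not_gt j2
  refine ⟨(sm0_iff hg.isOpen).2 fun p hp => ?_, k2, hΛ, hC, hCU, hCU', mC, fun p hp j1 j2 => ?_,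
    fun p hp j1 j2 => ?_, fun p _ j => (h1 p (mT p j)).pos.le, h6 _ fun p j => h1 p (mT p j)⟩
  · by_cases j : p ∈ T
    · exact (th_cd.contMDiff.contMDiffAt.comp p (sl p hp (h1 p j).pos)).congr_of_eventuallyEq
        (mem_of_superset (hT.mem_nhds j) fun y hy => indicator_of_mem hy _)
    refine (contMDiffAt_const (c := (0 : ℝ))).congr_of_eventuallyEq ?_
    rcases h4 p hp j with ⟨j1, j2⟩ | ⟨N, j1, j2⟩
    · filter_upwards [(sl p hp j1).continuousAt.eventually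
        (eventually_lt_nhds (j2.trans_lt (show (0 : ℝ) < 1 / 8 by norm_num)))] with y hy
      exact indicator_apply_eq_zero.2 fun _ => th_zero hy.le
    · exact mem_of_superset j1 fun y hy => indicator_of_notMem (disjoint_left.1 j2 hy) _
  · obtain ⟨j3, j4, -⟩ := hf p j1
    obtain ⟨σ, N⟩ := h3 p j3 (mC p hp j2)
    have e : T.indicator (fun p => th (lg a m (Sc g p))) =ᶠ[𝓝 p] fun y => lg a m (Sc g y) := by
      filter_upwards [hT.mem_nhds j3, (sl p hp (h1 p j3).pos).continuousAt.eventually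
        (eventually_gt_nhds (lt_of_lt_of_le (show (1 : ℝ) / 4 < 1 / 2 by norm_num) j4))] with y b1 b2
      rw [indicator_of_mem b1, th_eq b2.le]
    rw [gam_congr rfl e e, lap_congr .rfl e]
    exact der_lg hg hp N hη ha hc
  · obtain ⟨j3, j4, j5⟩ := hf p j1
    exact h5 _ (h1 p j3).pos (by linarith) (j5 ▸ j2)

end Vale.Agent.P216LS
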