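import Vale.Agent.P216LS.Tub
import Vale.Agent.P216EO.Tok

/-! # P216LS: the part of a tube on the kept side of a surgery neck -/

open scoped Manifold ContDiff Topology ENNReal
open Set MeasureTheory Metric Real Filter

noncomputable section

namespace Vale.Agent.P216LS

open P216R P216SG

theorem exists_exit {f : ℝ → ℝ} {a b lo hi : ℝ} (hab : a ≤ b) (hf : ContinuousOn f (Icc a b))
    (ha : f a ∈ Ioo lo hi) (hb : f b ∉ Ioo lo hi) :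
    ∃ e ∈ Icc a b, (∀ t ∈ Icc a e, f t ∈ Icc lo hi) ∧ (f e = lo ∨ f e = hi) := by
  have hc : IsCompact (Icc a b ∩ f ⁻¹' (Ioo lo hi)ᶜ) := isCompact_Icc.of_isClosed_subset
    (hf.preimage_isClosed_of_isClosed isClosed_Icc isOpen_Ioo.isClosed_compl) inter_subset_left
  obtain ⟨e, ⟨h1, h2⟩, h3⟩ := hc.exists_isLeast ⟨b, ⟨hab, le_rfl⟩, hb⟩
  have h4 : ∀ t ∈ Ico a e, f t ∈ Ioo lo hi := fun t ht => by_contra fun k =>
    (h3 ⟨⟨ht.1, ht.2.le.trans h1.2⟩, k⟩).not_gt ht.2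
  have h5 : a < e := h1.1.lt_of_ne fun k => h2 (k ▸ ha)
  have h6 : MapsTo f (Icc a e) (Icc lo hi) := by
    have := (show MapsTo f (Ico a e) (Icc lo hi) from fun t ht =>
      Ioo_subset_Icc_self (h4 t ht)).closure_of_continuousOn (by
        rw [closure_Ico h5.ne]; exact hf.mono (Icc_subset_Icc_right h1.2))
    rwa [closure_Ico h5.ne, isClosed_Icc.closure_eq] at this
  have h7 := h6 ⟨h1.1, le_rfl⟩
  refine ⟨e, h1, h6, h7.1.eq_or_lt.elim (fun k => .inl k.symm) fun k => .inr ?_⟩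
  exact h7.2.eq_or_lt.elim id fun k' => (h2 ⟨k, k'⟩).elim

theorem exists_exit' {f : ℝ → ℝ} {a b lo hi : ℝ} (hab : a ≤ b) (hf : ContinuousOn f (Icc a b))
    (hb : f b ∈ Ioo lo hi) (ha : f a ∉ Ioo lo hi) :
    ∃ e ∈ Icc a b, (∀ t ∈ Icc e b, f t ∈ Icc lo hi) ∧ (f e = lo ∨ f e = hi) := by
  obtain ⟨e, h1, h2, h3⟩ := exists_exit (f := fun t => f (-t)) (lo := lo) (hi := hi)
    (neg_le_neg hab) (hf.comp continuousOn_neg fun t ht => ⟨by linarith [ht.2], by linarith [ht.1]⟩)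
    (by rwa [neg_neg]) (by rwa [neg_neg])
  exact ⟨-e, ⟨by linarith [h1.2], by linarith [h1.1]⟩,
    fun t ht => by simpa using h2 (-t) ⟨by linarith [ht.2], by linarith [ht.1]⟩, h3⟩

theorem cmp_of {σ a b : ℝ} (hσ : 0 < σ) (ha : |σ ^ 2 * a - 1| ≤ 1 / 10)
    (hb : |σ ^ 2 * b - 1| ≤ 1 / 10) : 9 * a ≤ 11 * b :=
  le_of_mul_le_mul_left (by linarith [(abs_le.1 ha).2, (abs_le.1 hb).1]) (pow_pos hσ 2)

theorem sig_sq {a : ℝ} (ha : 0 < a) : (√a)⁻¹ ^ 2 * a = 1 := by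
  rw [inv_pow, sq_sqrt ha.le, inv_mul_cancel₀ ha.ne']

variable {M : Type} [TopologicalSpace M] [ChartedSpace E3 M]
  {g : Ten E3 M} {U K : Set M} {φ : E3 → M} {γ : ℝ → M} {h δ ε l t lo hi : ℝ} {x z : E3} {y : M}

/-- the scalar curvature is almost constant near the centres of necks -/
def NB (g : Ten E3 M) (U : Set M) (ε : ℝ) : Prop :=
  ∀ p σ, Cen g U p σ ε → ∀ q ∈ bl g U p (25 * σ), |σ ^ 2 * Sc g q - 1| ≤ 1 / 10

theorem lv_sph (hx : x ∈ sphere (0 : E3) 1) : lv x = 0 := lv_of_mem (by rwa [exp_zero])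

theorem sph_lan {a b : ℝ} (ha : a < 0) (hb : 0 < b) (hx : x ∈ sphere (0 : E3) 1) : x ∈ lan a b :=
  sphere_sub_lan ha hb (by rwa [exp_zero])

theorem seg_bl {s r : ℝ} (hγ : Seg g U γ l) (hs : s ∈ Icc 0 l) (ht : t ∈ Icc 0 l) :
    γ t ∈ bl g U (γ s) r ↔ |s - t| < r := by
  rw [bl, mem_ofPred, hγ.min s hs t ht, ENNReal.ofReal_lt_ofReal_iff_of_nonneg (abs_nonneg _)]

theorem bl_add' {p q : M} {r s : ℝ} (hq : q ∈ bl g U p r) : bl g U q s ⊆ bl g U p (r + s) :=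
  bl_add (pos_of_mem_bl hq).le (bl_subset_cbl hq)

theorem tb12 (H : Neck g U φ h δ) (hδ : δ ≤ 1 / 25) :
    Tb g U φ (lan (-12) 12) (7 / 5 * h) (3 / 2 * h) :=
  have : 25 ≤ δ⁻¹ := (le_inv_comm₀ (by norm_num) H.dpos).2 (by linarith)
  (H.tb hδ).mono isOpen_lan (lan_mono (by linarith) (by linarith))

variable [IsManifold 𝓘(ℝ, E3) ∞ M]

theorem bl_piece (H : Neck g U φ h δ) (hδ : δ ≤ 1 / 25) (hs : Hs U) (hx : x ∈ sphere (0 : E3) 1)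
    {d : ℝ} (hd : d ≤ 12) : bl g U (φ x) (7 / 5 * h * d) ⊆ φ '' lan (-d) d := by
  have := (tb12 H hδ).bl_sub (d := d) hs (sph_lan (by norm_num) (by norm_num) hx)
    (by rw [lv_sph hx]; linarith) (by rw [lv_sph hx]; linarith)
  rwa [lv_sph hx, zero_sub, zero_add] at this

theorem piece_bl (H : Neck g U φ h δ) (hδ : δ ≤ 1 / 25) (hx : x ∈ sphere (0 : E3) 1) {d : ℝ}
    (hd : d ≤ 12) : φ '' lan (-d) d ⊆ bl g U (φ x) (3 / 2 * h * (d + 4)) := by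
  rintro _ ⟨z, hz, rfl⟩
  obtain ⟨-, h1, h2⟩ := mem_lan.1 hz
  have h3 := H.hpos
  refine ((tb12 H hδ).ed_le (sph_lan (by norm_num) (by norm_num) hx)
    (lan_mono (by linarith) hd hz)).trans_lt ((ENNReal.ofReal_lt_ofReal_iff_of_nonneg
      (by positivity)).2 ?_)
  rw [lv_sph hx, zero_sub, abs_neg]
  exact mul_lt_mul_of_pos_left (add_lt_add (abs_lt.2 ⟨h1, h2⟩) pi_lt_four) (by positivity)

theorem piece_bl' (H : Neck g U φ h δ) (hδ : δ ≤ 1 / 25) (hx : x ∈ sphere (0 : E3) 1) :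
    φ '' lan (-12) 12 ⊆ bl g U (φ x) (25 * h) :=
  (piece_bl H hδ hx le_rfl).trans (bl_mono (by linarith [H.hpos]))

theorem level_bl (H : Neck g U φ h δ) (hδ : δ ≤ 1 / 25) {w : E3} (hz : z ∈ lan (-12) 12)
    (hw : w ∈ lan (-12) 12) (e : lv z = lv w) : φ w ∈ bl g U (φ z) (5 * h) :=
  have := H.hpos
  ((tb12 H hδ).ed_le_of_eq hz hw e).trans_lt ((ENNReal.ofReal_lt_ofReal_iff (by positivity)).2
    (by nlinarith [pi_lt_d2]))

/-- a minimising segment through the centre with far ends meets every level -/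
theorem cross12 (H : Neck g U φ h δ) (hδ : δ ≤ 1 / 25) (hU : IsOpen U) (hs : Hs U)
    (hx : x ∈ sphere (0 : E3) 1) (hγ : Seg g U γ l) (ht : t ∈ Icc 0 l) (e : γ t = φ x)
    (n0 : γ 0 ∉ bl g U (φ x) (25 * h)) (nl : γ l ∉ bl g U (φ x) (25 * h)) {c : ℝ} (h1 : -12 < c)
    (h2 : c < 12) : ∃ s ∈ Icc 0 l, ∃ w ∈ lan (-12) 12, lv w = c ∧ γ s = φ w :=
  (tb12 H hδ).cross_seg (d := 2) hU hs hγ ht (sph_lan (by norm_num) (by norm_num) hx) e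
    (fun k => n0 (piece_bl' H hδ hx k)) (fun k => nl (piece_bl' H hδ hx k))
    (by nlinarith [pi_lt_d2, H.hpos]) (by rw [lv_sph hx]; norm_num) (by rw [lv_sph hx]; norm_num)
    h1 h2

/-- one of the two far ends of the segment is not on the kept side -/
theorem side_or (H : Neck g U φ h δ) (δ1 : δ ≤ 1 / 25) (hU : IsOpen U) (hs : Hs U)
    (hK : Side U φ δ⁻¹ K) (hx : x ∈ sphere (0 : E3) 1) (hγ : Seg g U γ l) {s a b : ℝ}
    (sI : s ∈ Icc 0 l) (e : γ s = φ x) (n0 : γ 0 ∉ bl g U (φ x) (25 * h))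
    (nl : γ l ∉ bl g U (φ x) (25 * h)) (a0 : 0 ≤ a) (b0 : b ≤ l) (a1 : a + 25 * h ≤ s)
    (b1 : s + 25 * h ≤ b) : γ a ∉ K ∨ γ b ∉ K := by
  have δ2 : 25 ≤ δ⁻¹ := (le_inv_comm₀ (by norm_num) H.dpos).2 (by linarith)
  obtain ⟨u, hu, w, hw, k1, k2⟩ := cross12 (c := -5) H δ1 hU hs hx hγ sI e n0 nl (by norm_num)
    (by norm_num)
  have k3 := abs_lt.1 ((seg_bl hγ sI hu).1 (e ▸ piece_bl' H δ1 hx ⟨w, hw, k2.symm⟩))
  have k4 : γ u ∉ K := by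
    rw [k2, hK.mem w (lan_mono (by linarith) (by linarith) hw), not_lt,
      ← exp_lv (mem_lan.1 hw).1, k1]
    exact exp_le_one_iff.2 (by norm_num)
  have k5 : 7 * h ≤ |s - u| := by
    have := (tb12 H δ1).le_ed_lv (d := 5) hs (sph_lan (by norm_num) (by norm_num) hx) hw
      (by rw [lv_sph hx]; norm_num) (by rw [lv_sph hx]; norm_num) (by rw [lv_sph hx, k1]; norm_num)
    rw [← e, ← k2, hγ.min s sI u hu, ENNReal.ofReal_le_ofReal_iff (abs_nonneg _)] at this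
    linarith
  have key : ∀ c d, Icc c d ⊆ Icc 0 l → u ∈ Icc c d → (∀ t ∈ Icc c d, 5 * h ≤ |s - t|) →
      ∀ t ∈ Icc c d, γ t ∉ K := fun c d j1 j2 j3 t ht => by
    refine (hK.subset_or (isPreconnected_Icc.image γ (hγ.cont.mono j1))
      (hγ.mem.mono_left j1).image_subset (disjoint_left.2 ?_)).elim
      (fun j => (k4 (j ⟨u, j2, rfl⟩)).elim) fun j => disjoint_left.1 j ⟨t, ht, rfl⟩
    rintro _ ⟨r, hr, rfl⟩ ⟨z, hz, j4⟩
    exact (j3 r hr).not_gt ((seg_bl hγ sI (j1 hr)).1 (e ▸ j4 ▸ level_bl H δ1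
      (sph_lan (by norm_num) (by norm_num) hx) (sph_lan (by norm_num) (by norm_num) hz)
      ((lv_sph hx).trans (lv_sph hz).symm)))
  have hh := H.hpos
  rcases le_abs.1 k5 with k | k
  · have : a ≤ u := by linarith [k3.2]
    exact .inl (key a u (Icc_subset_Icc a0 hu.2) ⟨this, le_rfl⟩
      (fun t ht => le_abs.2 (.inl (by linarith [ht.2]))) a ⟨le_rfl, this⟩)
  · have : u ≤ b := by linarith [k3.1]
    exact .inr (key u b (Icc_subset_Icc hu.1 b0) ⟨le_rfl, this⟩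
      (fun t ht => le_abs.2 (.inr (by linarith [ht.1]))) b ⟨this, le_rfl⟩)

/-- the maximal piece `[a, b]` of the segment with curvature in `[lo, hi]` -/
structure Pc (ε lo hi v : ℝ) (g : Ten E3 M) (U K : Set M) (γ : ℝ → M) (l a b : ℝ) : Prop where
  seg : Seg g U γ l
  sub : Icc a b ⊆ Icc 0 l
  n0 : Sc g (γ 0) ∉ Icc (lo / 2) (2 * hi)
  nl : Sc g (γ l) ∉ Icc (lo / 2) (2 * hi)
  sc : ∀ t ∈ Icc a b, Sc g (γ t) ∈ Icc lo hi
  cen : ∀ t ∈ Icc a b, Cen g U (γ t) (√(Sc g (γ t)))⁻¹ ε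
  ends : ∀ r, r = a ∨ r = b → (Sc g (γ r) = lo ∨ Sc g (γ r) = hi) ∧ (γ r ∈ K → Sc g (γ r) = v)

/-- the union of the balls -/
def reg (g : Ten E3 M) (U : Set M) (γ : ℝ → M) (a b m : ℝ) : Set M :=
  ⋃ t ∈ Icc a b, bl g U (γ t) (m * (√(Sc g (γ t)))⁻¹)

variable {a b v r : ℝ} {p : M}

omit [IsManifold 𝓘(ℝ, E3) ∞ M] in
theorem Pc.mem (P : Pc ε lo hi v g U K γ l a b) (l0 : 0 < lo) (ht : t ∈ Icc a b)
    (k : |r ^ 2 * Sc g (γ t) - 1| ≤ 1 / 10) (hp : p ∈ bl g U (γ t) (5 * r)) :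
    p ∈ reg g U γ a b 10 := by
  have k1 := (P.cen t ht).hpos
  have k2 := l0.trans_le (P.sc t ht).1
  have : r ≤ 2 * (√(Sc g (γ t)))⁻¹ := le_of_pow_le_pow_left₀ two_ne_zero (by positivity)
    (le_of_mul_le_mul_right (by nlinarith [sig_sq k2, (abs_le.1 k).2]) k2)
  exact mem_biUnion ht (bl_mono (by linarith) hp)

/-- near the boundary of the region the curvature is near the end value -/
theorem Pc.front (P : Pc ε lo hi v g U K γ l a b) (l0 : 0 < lo) (v0 : 0 < v) (hU : IsOpen U)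
    (hs : Hs U) (hN : NB g U ε) (hε : ε ≤ 1 / 25) {L : ℝ} (hK : Side U φ L K)
    (y2 : ∀ q ∈ φ '' sphere 0 1, 11 * lo < 9 * Sc g q ∧ 11 * Sc g q < 9 * hi) (hp : p ∈ K)
    (k : p ∈ reg g U γ a b 11) (hp' : p ∉ reg g U γ a b 10) :
    v ≤ 2 * Sc g p ∧ Sc g p ≤ 2 * v := by
  obtain ⟨t, ht, k⟩ := mem_iUnion₂.1 k
  have hγ := P.seg
  have tI := P.sub ht
  have j0 := hN _ _ (P.cen t ht)
  obtain ⟨χ, N, x', hx', e'⟩ := P.cen t ht
  generalize (√(Sc g (γ t)))⁻¹ = σ at *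
  have s0 := N.hpos
  have j1 : ∀ q ∈ bl g U (γ t) (25 * σ), Sc g q ∈ Icc (lo / 2) (2 * hi) := fun q hq => by
    have j2 := j0 _ (mem_bl_self (hγ.mem tI) (by positivity))
    exact ⟨by linarith [cmp_of s0 j2 (j0 q hq), (P.sc t ht).1],
      by linarith [cmp_of s0 (j0 q hq) j2, (P.sc t ht).2, (P.sc t ht).1]⟩
  obtain ⟨z, hz, rfl⟩ := bl_piece N hε hs hx' (d := 8) (by norm_num)
    (e' ▸ bl_mono (by linarith) k)
  have hz' := lan_mono (show (-12 : ℝ) ≤ -8 by norm_num) (show (8 : ℝ) ≤ 12 by norm_num) hz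
  obtain ⟨u, hu, w, hw, k1, k2⟩ := cross12 N hε hU hs hx' hγ tI e'.symm
    (fun j => P.n0 (j1 _ (e' ▸ j))) (fun j => P.nl (j1 _ (e' ▸ j))) (mem_lan.1 hz').2.1
    (mem_lan.1 hz').2.2
  have k3 : χ z ∈ bl g U (γ u) (5 * σ) := k2 ▸ level_bl N hε hw hz' k1
  have k4 : |t - u| < 16 * σ := (seg_bl hγ tI hu).1
    (bl_mono (by linarith) (bl_add' k (mem_bl_comm.1 k3)))
  have k5 : u ∉ Icc a b := fun j =>
    hp' (P.mem l0 j (j0 _ ((seg_bl hγ tI hu).2 (by linarith))) k3)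
  obtain ⟨r, hr, rI, r2⟩ : ∃ r, (r = a ∨ r = b) ∧ r ∈ Icc a b ∧ |t - r| < 16 * σ := by
    have := abs_lt.1 k4
    have ab := ht.1.trans ht.2
    rcases not_and_or.1 k5 with j | j <;> rw [not_le] at j
    · exact ⟨a, .inl rfl, ⟨le_rfl, ab⟩, abs_lt.2 ⟨by linarith [ht.1], by linarith⟩⟩
    · exact ⟨b, .inr rfl, ⟨ab, le_rfl⟩, abs_lt.2 ⟨by linarith, by linarith [ht.2]⟩⟩
  have r3 : γ r ∈ χ '' lan (-12) 12 := bl_piece N hε hs hx' le_rfl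
    (e' ▸ (seg_bl hγ tI (P.sub rI)).2 (by linarith))
  have r4 : ∀ q ∈ χ '' lan (-12) 12, |σ ^ 2 * Sc g q - 1| ≤ 1 / 10 := fun q hq =>
    j0 q (e' ▸ piece_bl' N hε hx' hq)
  have r5 : γ r ∈ K := by
    refine ((hK.subset_or ((tb12 N hε).emb.preconn preconn_lan subset_rfl)
      ((tb12 N hε).emb.image_sub subset_rfl) (disjoint_left.2 fun q j j1 => ?_)).resolve_right
      fun j => disjoint_left.1 j ⟨z, hz', rfl⟩ hp) r3
    have j2 := y2 q j1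
    have j3 := cmp_of s0 (r4 _ j) (r4 _ r3)
    have j4 := cmp_of s0 (r4 _ r3) (r4 _ j)
    rcases (P.ends r hr).1 with j5 | j5 <;> linarith [j2.1, j2.2]
  have r6 := (P.ends r hr).2 r5
  have j3 := cmp_of s0 (r4 _ ⟨z, hz', rfl⟩) (r4 _ r3)
  have j4 := cmp_of s0 (r4 _ r3) (r4 _ ⟨z, hz', rfl⟩)
  exact ⟨by linarith, by linarith⟩

omit [IsManifold 𝓘(ℝ, E3) ∞ M] in
theorem Pc.disj (P : Pc ε lo hi v g U K γ l a b) (l0 : 0 < lo) (k : p ∉ reg g U γ a b 11) :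
    Disjoint (bl g U p (√hi)⁻¹) (reg g U γ a b 10) := disjoint_left.2 fun q j1 j2 => k <| by
  obtain ⟨t, ht, j3⟩ := mem_iUnion₂.1 j2
  have j4 : (√hi)⁻¹ ≤ (√(Sc g (γ t)))⁻¹ :=
    inv_anti₀ (sqrt_pos.2 (l0.trans_le (P.sc t ht).1)) (sqrt_le_sqrt (P.sc t ht).2)
  exact mem_biUnion ht (bl_mono (by linarith) (bl_add' j3 (mem_bl_comm.1 j1)))

/-- the region along the tube on the kept side -/
theorem tube_reg (hg : Met g U) (hs : Hs U) (hN : NB g U ε) (hε : ε ≤ 1 / 25)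
    (H : Neck g U φ h δ) (hδ : δ ≤ ε) (hK : Side U φ δ⁻¹ K) (hy : y ∈ φ '' sphere 0 1)
    (hT : Tub ε lo hi g U y) (l0 : 0 < lo) (h1 : 2 * lo * h ^ 2 ≤ 1) (h2 : 2 ≤ hi * h ^ 2) :
    ∃ T v, IsOpen T ∧ T ⊆ K ∧ φ '' lan 0 12 ⊆ T ∧ (v = lo ∨ v = hi) ∧
      (∀ p ∈ T, ∃ q σ, Cen g U q σ ε ∧ p ∈ bl g U q (10 * σ)) ∧
      ∀ p ∈ K, p ∉ T → (v ≤ 2 * Sc g p ∧ Sc g p ≤ 2 * v) ∨ ∃ N ∈ 𝓝 p, Disjoint N T := by
  obtain ⟨x, hx, rfl⟩ := hy
  obtain ⟨γ, l, s, hγ, sI, e, n0, nl, hC⟩ := hT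
  have hU := hg.isOpen
  have hh := H.hpos
  have hh2 := pow_pos hh 2
  have δ1 := hδ.trans hε
  have δ2 : 25 ≤ δ⁻¹ := (le_inv_comm₀ (by norm_num) H.dpos).2 (by linarith)
  have y1 := hN _ _ ⟨φ, H.mono hδ, x, hx, rfl⟩
  have y2 : ∀ q ∈ bl g U (φ x) (25 * h), 11 * lo < 9 * Sc g q ∧ 11 * Sc g q < 9 * hi :=
    fun q hq => by
      have := abs_le.1 (y1 q hq)
      exact ⟨lt_of_mul_lt_mul_left (by linarith [this.1]) hh2.le,
        lt_of_mul_lt_mul_left (by linarith [this.2]) hh2.le⟩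
  have ym : γ s ∈ bl g U (φ x) (25 * h) := e ▸ mem_bl_self (hγ.mem sI) (by positivity)
  have lh : lo < hi := by linarith [y2 _ ym]
  have y3 : ∀ q ∈ bl g U (φ x) (25 * h), Sc g q ∈ Ioo lo hi := fun q hq =>
    ⟨by linarith [y2 q hq], by linarith [y2 q hq]⟩
  have far : ∀ a, a ∉ Icc (lo / 2) (2 * hi) → a ∉ Ioo lo hi := fun a k k' =>
    k ⟨by linarith [k'.1], by linarith [k'.2]⟩
  have hc : ContinuousOn (fun t => Sc g (γ t)) (Icc 0 l) :=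
    (sm0_cont hU (P216EO.sm0_Sc hg)).comp hγ.cont hγ.mem
  obtain ⟨a, aI, ha, ha'⟩ := exists_exit' sI.1 (hc.mono (Icc_subset_Icc_right sI.2)) (y3 _ ym)
    (far _ n0)
  obtain ⟨b, bI, hb, hb'⟩ := exists_exit sI.2 (hc.mono (Icc_subset_Icc_left sI.1)) (y3 _ ym)
    (far _ nl)
  have ab : Icc a b ⊆ Icc 0 l := Icc_subset_Icc aI.1 bI.2
  have hab : ∀ t ∈ Icc a b, Sc g (γ t) ∈ Icc lo hi := fun t ht =>
    (le_total t s).elim (fun k => ha t ⟨ht.1, k⟩) fun k => hb t ⟨k, ht.2⟩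
  have out : ∀ u ∈ Icc 0 l, Sc g (γ u) = lo ∨ Sc g (γ u) = hi → 25 * h ≤ |s - u| := fun u hu k =>
    not_lt.1 fun k' => by
      have := y3 _ (e ▸ (seg_bl hγ sI hu).2 k')
      rcases k with k | k <;> rw [k] at this
      exacts [lt_irrefl _ this.1, lt_irrefl _ this.2]
  have a1 := out a ⟨aI.1, aI.2.trans sI.2⟩ ha'
  have b1 := out b ⟨sI.1.trans bI.1, bI.2⟩ hb'
  rw [abs_of_nonneg (sub_nonneg.2 aI.2)] at a1
  rw [abs_of_nonpos (sub_nonpos.2 bI.1)] at b1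
  have m0 := fun k => far _ n0 (y3 _ k)
  have ml := fun k => far _ nl (y3 _ k)
  obtain ⟨v, hv, hv'⟩ : ∃ v, (v = lo ∨ v = hi) ∧ ∀ u, u = a ∨ u = b → γ u ∈ K → Sc g (γ u) = v := by
    rcases side_or H δ1 hU hs hK hx hγ sI e m0 ml aI.1 bI.2 (by linarith) (by linarith) with k | k
    · exact ⟨_, hb', fun u j j' => j.elim (fun j => (k (j ▸ j')).elim) fun j => j ▸ rfl⟩
    · exact ⟨_, ha', fun u j j' => j.elim (fun j => j ▸ rfl) fun j => (k (j ▸ j')).elim⟩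
  have P : Pc ε lo hi v g U K γ l a b := ⟨hγ, ab, n0, nl, hab,
    fun t ht => hC t (ab ht) (hab t ht),
    fun r hr => ⟨hr.elim (fun j => j ▸ ha') fun j => j ▸ hb', hv' r hr⟩⟩
  refine ⟨K ∩ reg g U γ a b 10, v,
    hK.isOpen.inter (isOpen_biUnion fun t _ => hg.isOpen_bl _ _), inter_subset_left, ?_, hv,
    fun p hp => ?_, fun p hp hp' => ?_⟩
  · rintro _ ⟨z, hz, rfl⟩
    have hz' := lan_mono (show (-12 : ℝ) ≤ 0 by norm_num) le_rfl hz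
    obtain ⟨u, hu, w, hw, k1, k2⟩ := cross12 H δ1 hU hs hx hγ sI e m0 ml (mem_lan.1 hz').2.1
      (mem_lan.1 hz').2.2
    have k3 := piece_bl' H δ1 hx ⟨w, hw, k2.symm⟩
    have k4 := abs_lt.1 ((seg_bl hγ sI hu).1 (e ▸ k3))
    exact ⟨(hK.mem z (lan_mono (by linarith) (by linarith) hz')).2 (exp_zero ▸ hz.1),
      P.mem l0 ⟨by linarith [k4.2], by linarith [k4.1]⟩ (y1 _ k3)
        (k2 ▸ level_bl H δ1 hw hz' k1)⟩
  · obtain ⟨t, ht, k⟩ := mem_iUnion₂.1 hp.2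
    exact ⟨_, _, P.cen t ht, k⟩
  have hi0 := l0.trans lh
  by_cases k : p ∈ reg g U γ a b 11
  · exact .inl (P.front l0 (hv.elim (fun j => j ▸ l0) fun j => j ▸ hi0) hU hs hN hε hK
      (fun q ⟨z, hz, j⟩ => y2 q (piece_bl' H δ1 hx ⟨z, sph_lan (by norm_num) (by norm_num) hz, j⟩))
      hp k fun j => hp' ⟨hp, j⟩)
  · exact .inr ⟨_, hg.bl_mem_nhds (hK.sub hp) (by positivity),
      (P.disj l0 k).mono_right inter_subset_right⟩

end Vale.Agent.P216LS
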